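import Mathlib

/-!
# P281, project T-S (helper64), block A7: flat torsors on a convex set are trivial (helper751)

`Loc F z`: the function `F : X → A` is, near `z`, a section of the torsor. Local sections exist,
two local sections differ by a constant; then there is a section over `{ρ < R}`, for `ρ` convex,
with compact sublevel sets, and a unique minimum.
-/

open Set Filter Metric
open scoped Topology

namespace Vale.Agent.P281.H751.TS

section
variable {X A : Type*} [NormedAddCommGroup X] [NormedSpace ℝ X] [AddCommGroup A]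

/-- A flat torsor on the set `C`. -/
structure Tors (C : Set X) (Loc : (X → A) → X → Prop) : Prop where
  isOpen : IsOpen C
  congr : ∀ F F' z, z ∈ C → (∀ᶠ w in 𝓝 z, F' w = F w) → Loc F z → Loc F' z
  nhds : ∀ F z, z ∈ C → Loc F z → ∀ᶠ w in 𝓝 z, Loc F w
  ex : ∀ z ∈ C, ∃ F, Loc F z
  uniq : ∀ F F' z, z ∈ C → Loc F z → Loc F' z → ∃ a : A, ∀ᶠ w in 𝓝 z, F' w = F w + a
  tr : ∀ F z (a : A), z ∈ C → Loc F z → Loc (fun w => F w + a) z

/-- A locally constant function on a preconnected set is constant. -/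
theorem eq_of_locConst {W : Set X} (hW : IsPreconnected W) (D : X → A)
    (h : ∀ z ∈ W, ∀ᶠ w in 𝓝 z, D w = D z) {x y : X} (hx : x ∈ W) (hy : y ∈ W) : D x = D y := by
  let _ : TopologicalSpace A := ⊥
  have _ : DiscreteTopology A := ⟨rfl⟩
  refine hW.constant (f := D) ?_ hx hy
  intro z hz
  have h1 : ContinuousAt D z := by
    refine (continuousAt_const (y := D z)).congr ?_
    filter_upwards [h z hz] with w hw using hw.symm
  exact h1.continuousWithinAt

variable {C : Set X} {Loc : (X → A) → X → Prop}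

theorem Tors.diff (T : Tors C Loc) {W : Set X} (hW : IsPreconnected W) (hWC : W ⊆ C)
    {F F' : X → A} (h : ∀ z ∈ W, Loc F z) (h' : ∀ z ∈ W, Loc F' z) {x y : X} (hx : x ∈ W)
    (hy : y ∈ W) : F' x - F x = F' y - F y := by
  refine eq_of_locConst hW (fun z => F' z - F z) (fun z hz => ?_) hx hy
  obtain ⟨a, ha⟩ := T.uniq F F' z (hWC hz) (h z hz) (h' z hz)
  have h0 := ha.self_of_nhds
  filter_upwards [ha] with w hw
  rw [hw, h0]; abel

/-- If the compact set `{ρ ≤ s}` is in the open set `O`, so is `{ρ < s'}` for some `s' > s`. -/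
theorem grow {ρ : X → ℝ} (hc : Continuous ρ) (hK : ∀ s, IsCompact {z | ρ z ≤ s}) {s : ℝ}
    {O : Set X} (hO : IsOpen O) (h : ∀ z, ρ z ≤ s → z ∈ O) :
    ∃ s' > s, ∀ z, ρ z < s' → z ∈ O := by
  by_cases hne : ({z | ρ z ≤ s + 1} \ O).Nonempty
  · obtain ⟨x, hx, hmin⟩ := ((hK (s + 1)).diff hO).exists_isMinOn hne hc.continuousOn
    have hxs : s < ρ x := by
      by_contra hcon
      exact hx.2 (h x (not_lt.1 hcon))
    refine ⟨min (ρ x) (s + 1), lt_min hxs (by linarith), fun z hz => ?_⟩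
    by_contra hzO
    have h1 : z ∈ {z | ρ z ≤ s + 1} \ O := ⟨(lt_of_lt_of_le hz (min_le_right _ _)).le, hzO⟩
    have h2 : ρ x ≤ ρ z := hmin h1
    exact absurd (lt_of_lt_of_le hz (min_le_left _ _)) (not_lt.2 h2)
  · refine ⟨s + 1, by linarith, fun z hz => ?_⟩
    by_contra hzO
    exact hne ⟨z, hz.le, hzO⟩

theorem seg {p q w : X} {a b : ℝ} (ha : 0 < a) (hb : 0 < b) (hp : w ∈ ball p a)
    (hq : w ∈ ball q b) :
    ∃ t : ℝ, 0 ≤ t ∧ t ≤ 1 ∧ (1 - t) • p + t • q ∈ ball p a ∧ (1 - t) • p + t • q ∈ ball q b := by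
  have hd : dist p q < a + b := by
    calc dist p q ≤ dist p w + dist w q := dist_triangle _ _ _
      _ < a + b := add_lt_add (by rw [dist_comm]; exact hp) hq
  have hab : 0 < a + b := by linarith
  refine ⟨a / (a + b), by positivity, (div_le_one hab).2 (by linarith), ?_, ?_⟩
  · rw [mem_ball, dist_eq_norm]
    have : (1 - a / (a + b)) • p + (a / (a + b)) • q - p = (a / (a + b)) • (q - p) := by
      module
    rw [this, norm_smul, Real.norm_of_nonneg (by positivity), ← dist_eq_norm, dist_comm]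
    rw [div_mul_eq_mul_div, div_lt_iff₀ hab]
    nlinarith
  · rw [mem_ball, dist_eq_norm]
    have : (1 - a / (a + b)) • p + (a / (a + b)) • q - q = (b / (a + b)) • (p - q) := by
      have h1 : (1 - a / (a + b)) = b / (a + b) := by field_simp; ring
      have h2 : (1 : ℝ) - b / (a + b) = a / (a + b) := by field_simp; ring
      rw [h1, ← h2]; module
    rw [this, norm_smul, Real.norm_of_nonneg (by positivity), ← dist_eq_norm]
    rw [div_mul_eq_mul_div, div_lt_iff₀ hab]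
    nlinarith

/-- The extension step. -/
theorem Tors.step (T : Tors C Loc) {ρ : X → ℝ} (hc : Continuous ρ) (hconv : ConvexOn ℝ univ ρ)
    (hK : ∀ s, IsCompact {z | ρ z ≤ s}) {c : X} {s : ℝ} (hs : ρ c < s)
    (hC : ∀ z, ρ z ≤ s → z ∈ C) (F : X → A) (hF : ∀ z, ρ z < s → Loc F z) :
    ∃ s' > s, ∃ F' : X → A, ∀ z, ρ z < s' → Loc F' z := by
  classical
  have hlt : Convex ℝ {z | ρ z < s} := by
    have := hconv.convex_lt s
    simpa using this
  -- points of the closed set are limits of points of the open one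
  have hlim : ∀ p, ρ p ≤ s → ∀ N : Set X, IsOpen N → p ∈ N → ∃ y ∈ N, ρ y < s := by
    intro p hp N hN hpN
    have hcont : Continuous fun t : ℝ => (1 - t) • p + t • c := by fun_prop
    have h0 : (fun t : ℝ => (1 - t) • p + t • c) 0 ∈ N := by simpa using hpN
    have h1 := hcont.continuousAt.preimage_mem_nhds (hN.mem_nhds h0)
    obtain ⟨ε, hε, hball⟩ := Metric.mem_nhds_iff.1 h1
    set t := min (ε / 2) 1 with ht
    have ht0 : 0 < t := lt_min (by linarith) one_pos
    have ht1 : t ≤ 1 := min_le_right _ _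
    have htb : t ∈ ball (0 : ℝ) ε := by
      rw [mem_ball_zero_iff, Real.norm_of_nonneg ht0.le]
      exact lt_of_le_of_lt (min_le_left _ _) (by linarith)
    refine ⟨_, hball htb, ?_⟩
    have h2 := hconv.2 (mem_univ p) (mem_univ c) (sub_nonneg.2 ht1) ht0.le (by ring)
    refine lt_of_le_of_lt h2 ?_
    simp only [smul_eq_mul]
    nlinarith
  have hex : ∀ p, ρ p ≤ s → ∃ (G : X → A) (ε : ℝ), 0 < ε ∧ ball p ε ⊆ C ∧
      (∀ w ∈ ball p ε, Loc G w) ∧ ∀ w ∈ ball p ε, ρ w < s → G w = F w := by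
    intro p hp
    have hpC := hC p hp
    obtain ⟨G, hG⟩ := T.ex p hpC
    obtain ⟨ε, hε, hb⟩ := Metric.mem_nhds_iff.1
      ((T.nhds G p hpC hG).and (T.isOpen.mem_nhds hpC))
    obtain ⟨y, hyb, hys⟩ := hlim p hp (ball p ε) isOpen_ball (mem_ball_self hε)
    refine ⟨fun w => G w + (F y - G y), ε, hε, fun w hw => (hb hw).2,
      fun w hw => T.tr G w _ (hb hw).2 (hb hw).1, fun w hw hws => ?_⟩
    have hW : IsPreconnected (ball p ε ∩ {z | ρ z < s}) :=
      ((convex_ball p ε).inter hlt).isPreconnected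
    have := T.diff hW (fun z hz => (hb hz.1).2) (F := F) (F' := G) (fun z hz => hF z hz.2)
      (fun z hz => (hb hz.1).1) (x := w) (y := y) ⟨hw, hws⟩ ⟨hyb, hys⟩
    show G w + (F y - G y) = F w
    have h3 : F y - G y = F w - G w := by rw [← neg_sub, ← this, neg_sub]
    rw [h3]; abel
  choose! G ε hε hCb hL hEq using hex
  set O : Set X := {w | ∃ p, ρ p ≤ s ∧ w ∈ ball p (ε p)} with hO
  have hOo : IsOpen O := by
    have : O = ⋃ p, ⋃ (_ : ρ p ≤ s), ball p (ε p) := by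
      ext w; simp [hO]
    rw [this]
    exact isOpen_iUnion fun p => isOpen_iUnion fun _ => isOpen_ball
  obtain ⟨s', hs', hsub⟩ := grow hc hK hOo (fun z hz => ⟨z, hz, mem_ball_self (hε z hz)⟩)
  refine ⟨s', hs', fun w => if h : ∃ p, ρ p ≤ s ∧ w ∈ ball p (ε p) then G h.choose w else 0,
    fun z hz => ?_⟩
  obtain ⟨p, hp, hzp⟩ := hsub z hz
  refine T.congr (G p) _ z (hCb p hp hzp) ?_ (hL p hp z hzp)
  filter_upwards [isOpen_ball.mem_nhds hzp] with w hw
  have hex : ∃ p, ρ p ≤ s ∧ w ∈ ball p (ε p) := ⟨p, hp, hw⟩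
  simp only [dif_pos hex]
  obtain ⟨hq, hwq⟩ := hex.choose_spec
  set q := hex.choose with hqdef
  -- a point of `{ρ < s}` in the intersection of the balls
  obtain ⟨t, ht0, ht1, hx1, hx2⟩ := seg (hε p hp) (hε q hq) hw hwq
  have hxs : ρ ((1 - t) • p + t • q) ≤ s := by
    have h2 := hconv.2 (mem_univ p) (mem_univ q) (sub_nonneg.2 ht1) ht0 (by ring)
    refine h2.trans ?_
    simp only [smul_eq_mul]
    nlinarith
  obtain ⟨y, hy, hys⟩ := hlim _ hxs (ball p (ε p) ∩ ball q (ε q)) (isOpen_ball.inter isOpen_ball)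
    ⟨hx1, hx2⟩
  have hW : IsPreconnected (ball p (ε p) ∩ ball q (ε q)) :=
    ((convex_ball p _).inter (convex_ball q _)).isPreconnected
  have h5 := T.diff hW (fun z hz => hCb p hp hz.1) (F := G p) (F' := G q)
    (fun z hz => hL p hp z hz.1) (fun z hz => hL q hq z hz.2) (x := w) (y := y) ⟨hw, hwq⟩ hy
  rw [hEq p hp y hy.1 hys, hEq q hq y hy.2 hys, sub_self] at h5
  exact sub_eq_zero.1 h5

/-- The union step. -/
theorem Tors.union (T : Tors C Loc) {ρ : X → ℝ} (hc : Continuous ρ) (hconv : ConvexOn ℝ univ ρ)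
    {c : X} (h0 : ρ c = 0) (hpos : ∀ z, 0 ≤ ρ z) {σ : ℝ} (hσ : 0 < σ)
    (hC : ∀ z, ρ z < σ → z ∈ C)
    (h : ∀ s, 0 < s → s < σ → ∃ F : X → A, ∀ z, ρ z < s → Loc F z) :
    ∃ F : X → A, ∀ z, ρ z < σ → Loc F z := by
  have hlt : ∀ s, Convex ℝ {z | ρ z < s} := by
    intro s
    have := hconv.convex_lt s
    simpa using this
  have h' : ∀ s, 0 < s → s < σ → ∃ F : X → A, F c = 0 ∧ ∀ z, ρ z < s → Loc F z := by
    intro s hs hs'
    obtain ⟨F, hF⟩ := h s hs hs'
    exact ⟨fun w => F w + (- F c), by simp, fun z hz => T.tr F z _ (hC z (hz.trans hs')) (hF z hz)⟩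
  choose! F hFc hF using h'
  have hn : ∀ z, ρ z < σ → 0 < (ρ z + σ) / 2 ∧ (ρ z + σ) / 2 < σ ∧ ρ z < (ρ z + σ) / 2 := by
    intro z hz
    have := hpos z
    exact ⟨by linarith, by linarith, by linarith⟩
  refine ⟨fun z => F ((ρ z + σ) / 2) z, fun z hz => ?_⟩
  obtain ⟨h1, h2, h3⟩ := hn z hz
  refine T.congr (F ((ρ z + σ) / 2)) _ z (hC z hz) ?_ (hF _ h1 h2 z h3)
  have hev : ∀ᶠ w in 𝓝 z, ρ w < (ρ z + σ) / 2 := hc.continuousAt.eventually_lt_const h3
  filter_upwards [hev] with w hw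
  obtain ⟨k1, k2, k3⟩ := hn w (hw.trans h2)
  have hW := (hlt (min ((ρ z + σ) / 2) ((ρ w + σ) / 2))).isPreconnected
  have h5 := T.diff hW (fun y hy => hC y ((lt_of_lt_of_le hy (min_le_left _ _)).trans h2))
    (F := F ((ρ z + σ) / 2)) (F' := F ((ρ w + σ) / 2))
    (fun y hy => hF _ h1 h2 y (lt_of_lt_of_le hy (min_le_left _ _)))
    (fun y hy => hF _ k1 k2 y (lt_of_lt_of_le hy (min_le_right _ _))) (x := w) (y := c)
    (lt_min hw k3) (by rw [mem_ofPred_eq, h0]; exact lt_min h1 k1)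
  rw [hFc _ h1 h2, hFc _ k1 k2, sub_self] at h5
  exact sub_eq_zero.1 h5

/-- **Flat torsors on a convex set are trivial.** -/
theorem Tors.main (T : Tors C Loc) {ρ : X → ℝ} (hc : Continuous ρ) (hconv : ConvexOn ℝ univ ρ)
    (hK : ∀ s, IsCompact {z | ρ z ≤ s}) {c : X} (h0 : ρ c = 0) (hpos : ∀ z, z ≠ c → 0 < ρ z)
    {R : ℝ} (hC : ∀ z, ρ z < R → z ∈ C) : ∃ F : X → A, ∀ z, ρ z < R → Loc F z := by
  have hnn : ∀ z, 0 ≤ ρ z := by
    intro z
    by_cases hz : z = c
    · rw [hz, h0]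
    · exact (hpos z hz).le
  rcases le_or_gt R 0 with hR | hR
  · exact ⟨fun _ => 0, fun z hz => absurd (hz.trans_le hR) (not_lt.2 (hnn z))⟩
  set S : Set ℝ := {s | 0 < s ∧ s ≤ R ∧ ∃ F : X → A, ∀ z, ρ z < s → Loc F z} with hS
  have hcC : c ∈ C := hC c (by rw [h0]; exact hR)
  have hne : S.Nonempty := by
    obtain ⟨F, hF⟩ := T.ex c hcC
    obtain ⟨O, hO, hOo, hcO⟩ := _root_.eventually_nhds_iff.1 (T.nhds F c hcC hF)
    obtain ⟨s', hs', hsub⟩ := grow (s := 0) hc hK hOo (fun z hz => by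
      by_cases hzc : z = c
      · rw [hzc]; exact hcO
      · exact absurd hz (not_le.2 (hpos z hzc)))
    exact ⟨min s' R, lt_min hs' hR, min_le_right _ _, F,
      fun z hz => hO z (hsub z (lt_of_lt_of_le hz (min_le_left _ _)))⟩
  have hbdd : BddAbove S := ⟨R, fun s hs => hs.2.1⟩
  set σ := sSup S with hσdef
  have hσR : σ ≤ R := csSup_le hne fun s hs => hs.2.1
  have hσ0 : 0 < σ := by
    obtain ⟨s, hs⟩ := hne
    exact lt_of_lt_of_le hs.1 (le_csSup hbdd hs)
  obtain ⟨F, hF⟩ := T.union hc hconv h0 hnn hσ0 (fun z hz => hC z (hz.trans_le hσR))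
    (fun s _ hs' => by
      obtain ⟨s1, hs1, hlt⟩ := exists_lt_of_lt_csSup hne hs'
      obtain ⟨F, hF⟩ := hs1.2.2
      exact ⟨F, fun z hz => hF z (hz.trans hlt)⟩)
  rcases hσR.lt_or_eq with hlt | heq
  · exfalso
    obtain ⟨s', hs', F', hF'⟩ := T.step hc hconv hK (c := c) (s := σ) (by rw [h0]; exact hσ0)
      (fun z hz => hC z (lt_of_le_of_lt hz hlt)) F hF
    have hmem : min s' R ∈ S := ⟨lt_min (hσ0.trans hs') hR, min_le_right _ _, F',
      fun z hz => hF' z (lt_of_lt_of_le hz (min_le_left _ _))⟩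
    exact absurd (le_csSup hbdd hmem) (not_le.2 (lt_min hs' hlt))
  · rw [← heq]; exact ⟨F, hF⟩

end

end Vale.Agent.P281.H751.TS
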