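import Vale.Agent.P281.H64.TS.Spec
import Vale.Agent.P281.H751.TS.Tors

/-!
# P281, project T-S (helper64), block A7: integral forms have integral Čech classes (helper751)
-/

open Set Filter Metric MeasureTheory Vale.Agent.P272.K Vale.Agent.P281.H64.TK
  Vale.Agent.P281.H64.TK.TS
open scoped Topology ContDiff ComplexConjugate

noncomputable section

namespace Vale.Agent.P281.H751.TS

/-- `ℂ / ℤ`. -/
abbrev CZ : Type := ℂ ⧸ AddSubgroup.zmultiples (1 : ℂ)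

/-- The projection `ℂ → ℂ / ℤ`. -/
def q : ℂ →+ CZ := QuotientAddGroup.mk' _

theorem q_surj : Function.Surjective q := QuotientAddGroup.mk'_surjective _

theorem q_zero_iff (x : ℂ) : q x = 0 ↔ ∃ m : ℤ, x = m := by
  have : q x = 0 ↔ x ∈ AddSubgroup.zmultiples (1 : ℂ) := QuotientAddGroup.eq_zero_iff x
  rw [this, AddSubgroup.mem_zmultiples_iff]
  constructor
  · rintro ⟨m, hm⟩; exact ⟨m, by rw [← hm]; simp⟩
  · rintro ⟨m, hm⟩; exact ⟨m, by rw [hm]; simp⟩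

theorem q_int (m : ℤ) : q (m : ℂ) = 0 := (q_zero_iff _).2 ⟨m, rfl⟩

/-- A function with zero derivative near `z` is constant near `z`. -/
theorem ev_const {X : Type*} [NormedAddCommGroup X] [NormedSpace ℝ X] {D : X → ℂ} {z : X}
    (h : ∀ᶠ w in 𝓝 z, HasFDerivAt D (0 : X →L[ℝ] ℂ) w) : ∀ᶠ w in 𝓝 z, D w = D z := by
  obtain ⟨ε, hε, hb⟩ := Metric.mem_nhds_iff.1 h
  filter_upwards [ball_mem_nhds z hε] with w hw
  exact isOpen_ball.is_const_of_fderiv_eq_zero (convex_ball z ε).isPreconnected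
    (fun u hu => (hb hu).differentiableAt.differentiableWithinAt)
    (fun u hu => (hb hu).fderiv) hw (mem_ball_self hε)

section Eb
variable {d : ℕ}

/-- The square of the Euclidean distance to `c`. -/
def eq2 (c z : Cm d) : ℝ := ∑ k, ‖z k - c k‖ ^ 2

theorem eq2_cont (c : Cm d) : Continuous (eq2 c) := by
  unfold eq2; fun_prop

theorem eq2_self (c : Cm d) : eq2 c c = 0 := by simp [eq2]

theorem eq2_pos {c z : Cm d} (h : z ≠ c) : 0 < eq2 c z := by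
  obtain ⟨k, hk⟩ := Function.ne_iff.1 h
  refine Finset.sum_pos' (fun _ _ => by positivity) ⟨k, Finset.mem_univ _, ?_⟩
  have : 0 < ‖z k - c k‖ := norm_pos_iff.2 (sub_ne_zero.2 hk)
  positivity

theorem eq2_convex (c : Cm d) : ConvexOn ℝ univ (eq2 c) := by
  refine ⟨convex_univ, fun x _ y _ a b ha hb hab => ?_⟩
  simp only [eq2, smul_eq_mul, Finset.mul_sum, ← Finset.sum_add_distrib]
  refine Finset.sum_le_sum fun k _ => ?_
  have h1 : (a • x + b • y) k - c k = a • (x k - c k) + b • (y k - c k) := by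
    have hb' : b = 1 - a := by linarith
    subst hb'
    simp only [Pi.add_apply, Pi.smul_apply]
    module
  have h2 : ‖(a • x + b • y) k - c k‖ ≤ a * ‖x k - c k‖ + b * ‖y k - c k‖ := by
    rw [h1]
    refine (norm_add_le _ _).trans ?_
    rw [norm_smul, norm_smul, Real.norm_of_nonneg ha, Real.norm_of_nonneg hb]
  have h3 : ‖(a • x + b • y) k - c k‖ ^ 2 ≤ (a * ‖x k - c k‖ + b * ‖y k - c k‖) ^ 2 :=
    pow_le_pow_left₀ (norm_nonneg _) h2 2
  refine h3.trans ?_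
  have hb' : b = 1 - a := by linarith
  subst hb'
  nlinarith [mul_nonneg (mul_nonneg ha hb) (sq_nonneg (‖x k - c k‖ - ‖y k - c k‖))]

theorem eq2_compact (c : Cm d) (s : ℝ) : IsCompact {z | eq2 c z ≤ s} := by
  refine Metric.isCompact_of_isClosed_isBounded (isClosed_le (eq2_cont c) continuous_const) ?_
  refine (isBounded_closedBall (x := c) (r := √s)).subset fun z hz => ?_
  rw [mem_closedBall, dist_eq_norm, pi_norm_le_iff_of_nonneg (Real.sqrt_nonneg _)]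
  intro k
  refine Real.le_sqrt_of_sq_le ?_
  refine le_trans ?_ hz
  exact Finset.single_le_sum (f := fun k => ‖z k - c k‖ ^ 2) (fun _ _ => by positivity)
    (Finset.mem_univ k)

theorem mem_eb {c z : Cm d} {r : ℝ} : z ∈ eb c r ↔ eq2 c z < r ^ 2 := Iff.rfl

theorem eb_open (c : Cm d) (r : ℝ) : IsOpen (eb c r) :=
  isOpen_lt (eq2_cont c) continuous_const

theorem eb_sub2 (c : Cm d) {r : ℝ} (_ : 0 < r) : eb c r ⊆ eb c (2 * r) := fun z hz => by
  rw [mem_eb] at hz ⊢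
  nlinarith

end Eb

section
variable {d : ℕ} {E Γ : Type} [TopologicalSpace E] [Group Γ] [MulAction Γ E]

theorem tends (S : Sheets d E Γ) (i : Fin S.N) {z : Cm d} (hz : z ∈ ball (0 : Cm d) 3) :
    Tendsto (S.σ i) (𝓝 z) (𝓝 (S.σ i z)) := (S.map_nhds i z hz).le

theorem inj' (S : Sheets d E Γ) (i : Fin S.N) {z w : Cm d} (hz : z ∈ ball (0 : Cm d) 3)
    (hw : w ∈ ball (0 : Cm d) 3) (h : S.σ i z = S.σ i w) : z = w :=
  (S.inj i z hz w hw 1 (by rw [one_smul, h])).2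

theorem Good_sub3 {S : Sheets d E Γ} {A : Type} (G : Good S A) (a : A) :
    eb (G.c a) (G.r a) ⊆ ball 0 3 := fun _ hz =>
  ball_subset_ball (by norm_num) (G.sub a (eb_sub2 _ (G.pos a) hz))

theorem U_open {S : Sheets d E Γ} {A : Type} (G : Good S A) (a : A) : IsOpen (G.U a) := by
  rw [isOpen_iff_mem_nhds]
  rintro e ⟨z, hz, rfl⟩
  rw [← S.map_nhds _ z (Good_sub3 G a hz)]
  exact image_mem_map ((eb_open _ _).mem_nhds hz)

variable {ι : Type}

/-- `F` is near `z` a section of the `ℂ/ℤ`-torsor of the primitives of `b - β'`. -/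
def Lc (S : Sheets d E Γ) (V : ι → Set E) (β' : ι → Fin S.N → Cm d → L1 d) (g' : ι → ι → E → ℂ)
    (ix : E → ι) (i : Fin S.N) (b : Cm d → L1 d) (F : Cm d → CZ) (z : Cm d) : Prop :=
  ∃ j, S.σ i z ∈ V j ∧ ∃ P : Cm d → ℂ, ∀ᶠ w in 𝓝 z, HasFDerivAt P (b w - β' j i w) w ∧
    F w + q (g' (ix (S.σ i w)) j (S.σ i w)) = q (P w)

theorem tors {S : Sheets d E Γ} {V : ι → Set E} {β' : ι → Fin S.N → Cm d → L1 d}
    {g' : ι → ι → E → ℂ} {ix : E → ι} {i : Fin S.N} {b : Cm d → L1 d}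
    {α : Fin S.N → Cm d → L2 d} {C : Set (Cm d)} (hC : IsOpen C) (hC3 : C ⊆ ball 0 3)
    (hV : ∀ a, IsOpen (V a)) (hix : ∀ e, e ∈ V (ix e))
    (h1 : ∀ a, F1On S (V a) (β' a) ∧ IsD1 S (V a) (β' a) α)
    (h2 : ∀ a b, SmOn S (V a ∩ V b) (g' a b) ∧
      IsD0 S (V a ∩ V b) (g' a b) (fun i z => β' a i z - β' b i z))
    (h3 : ∀ a b c, ∀ e ∈ V a ∩ V b ∩ V c, ∃ m : ℤ, g' b c e - g' a c e + g' a b e = m)
    (hb : ∀ z ∈ C, ContDiffAt ℝ ∞ b z)
    (hb' : ∀ z ∈ C, ∀ u v, fderiv ℝ b z u v - fderiv ℝ b z v u = α i z u v) :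
    Tors C (Lc S V β' g' ix i b) where
  isOpen := hC
  congr := by
    rintro F F' z hz hFF ⟨j, hj, P, hP⟩
    refine ⟨j, hj, P, ?_⟩
    filter_upwards [hP, hFF] with w hw hw'
    rw [hw']; exact hw
  nhds := by
    rintro F z hz ⟨j, hj, P, hP⟩
    filter_upwards [eventually_eventually_nhds.2 hP,
      (tends S i (hC3 hz)).eventually ((hV j).mem_nhds hj)] with w hw hwj
    exact ⟨j, hwj, P, hw⟩
  ex := by
    intro z hz
    set j := ix (S.σ i z) with hj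
    have hzj : S.σ i z ∈ V j := hix _
    have hzC : ∀ᶠ w in 𝓝 z, w ∈ C := hC.mem_nhds hz
    have hzV : ∀ᶠ w in 𝓝 z, S.σ i w ∈ V j := (tends S i (hC3 hz)).eventually ((hV j).mem_nhds hzj)
    obtain ⟨ε, hε, hB⟩ := Metric.mem_nhds_iff.1 (hzC.and hzV)
    have hsm : ∀ w ∈ ball z ε, DifferentiableAt ℝ b w ∧ DifferentiableAt ℝ (β' j i) w := by
      intro w hw
      exact ⟨(hb w (hB hw).1).differentiableAt (by simp),
        ((h1 j).1.smooth i w (hC3 (hB hw).1) (hB hw).2).differentiableAt (by simp)⟩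
    have hdf : DifferentiableOn ℝ (fun w => b w - β' j i w) (ball z ε) :=
      fun w hw => ((hsm w hw).1.sub (hsm w hw).2).differentiableWithinAt
    obtain ⟨P, hP⟩ := (convex_ball z ε).exists_forall_hasFDerivAt_of_fderiv_symmetric
      isOpen_ball hdf (by
        intro w hw u v
        have e1 : fderiv ℝ (fun w => b w - β' j i w) w = fderiv ℝ b w - fderiv ℝ (β' j i) w :=
          fderiv_fun_sub (hsm w hw).1 (hsm w hw).2
        rw [e1]
        simp only [sub_apply]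
        have e2 := hb' w (hB hw).1 u v
        have e3 := (h1 j).2 i w (hC3 (hB hw).1) (hB hw).2 u v
        linear_combination e2 - e3)
    refine ⟨fun w => q (P w) - q (g' (ix (S.σ i w)) j (S.σ i w)), j, hzj, P, ?_⟩
    filter_upwards [ball_mem_nhds z hε] with w hw
    exact ⟨hP w hw, by simp⟩
  uniq := by
    rintro F F' z hz ⟨j, hj, P, hP⟩ ⟨k, hk, P', hP'⟩
    have hzC : ∀ᶠ w in 𝓝 z, w ∈ C := hC.mem_nhds hz
    have hev : ∀ᶠ w in 𝓝 z, w ∈ C ∧ S.σ i w ∈ V j ∧ S.σ i w ∈ V k :=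
      hzC.and (((tends S i (hC3 hz)).eventually ((hV j).mem_nhds hj)).and
          ((tends S i (hC3 hz)).eventually ((hV k).mem_nhds hk)))
    have hD : ∀ᶠ w in 𝓝 z, HasFDerivAt (fun w => P' w - P w - g' j k (S.σ i w))
        (0 : Cm d →L[ℝ] ℂ) w := by
      filter_upwards [hP, hP', hev] with w hw hw' hwe
      have hw3 := hC3 hwe.1
      have e1 := ((h2 j k).1 i w hw3 ⟨hwe.2.1, hwe.2.2⟩).differentiableAt (by simp)
      have e2 := e1.hasFDerivAt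
      rw [(h2 j k).2 i w hw3 ⟨hwe.2.1, hwe.2.2⟩] at e2
      refine ((hw'.1.sub hw.1).sub e2).congr_fderiv ?_
      show b w - β' k i w - (b w - β' j i w) - (β' j i w - β' k i w) = 0
      abel
    refine ⟨q (P' z - P z - g' j k (S.σ i z)), ?_⟩
    filter_upwards [hP, hP', hev, ev_const hD] with w hw hw' hwe hc
    obtain ⟨m, hm⟩ := h3 (ix (S.σ i w)) j k (S.σ i w) ⟨⟨hix _, hwe.2.1⟩, hwe.2.2⟩
    rw [← hc]
    have e1 : F w = q (P w) - q (g' (ix (S.σ i w)) j (S.σ i w)) := by rw [← hw.2]; abel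
    have e2 : F' w = q (P' w) - q (g' (ix (S.σ i w)) k (S.σ i w)) := by rw [← hw'.2]; abel
    have e3 := congrArg q hm
    rw [q_int, map_add, map_sub] at e3
    rw [e1, e2, map_sub, map_sub]
    rw [← sub_eq_zero]
    rw [← e3]
    abel
  tr := by
    rintro F z a hz ⟨j, hj, P, hP⟩
    obtain ⟨x, rfl⟩ := q_surj a
    refine ⟨j, hj, fun w => P w + x, ?_⟩
    filter_upwards [hP] with w hw
    refine ⟨hw.1.add_const x, ?_⟩
    rw [map_add, ← hw.2]; abel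

/-- The comparison of the sections over two members of the covering is locally constant. -/
theorem comp_const {S : Sheets d E Γ} {V : ι → Set E} {β' : ι → Fin S.N → Cm d → L1 d}
    {g' : ι → ι → E → ℂ} {ix : E → ι} {α : Fin S.N → Cm d → L2 d}
    (hV : ∀ a, IsOpen (V a)) (hix : ∀ e, e ∈ V (ix e))
    (h1 : ∀ a, F1On S (V a) (β' a) ∧ IsD1 S (V a) (β' a) α)
    (h2 : ∀ a b, SmOn S (V a ∩ V b) (g' a b) ∧
      IsD0 S (V a ∩ V b) (g' a b) (fun i z => β' a i z - β' b i z))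
    (h3 : ∀ a b c, ∀ e ∈ V a ∩ V b ∩ V c, ∃ m : ℤ, g' b c e - g' a c e + g' a b e = m)
    {U U' : Set E} (hU : IsOpen U) (hU' : IsOpen U') {b b' : Fin S.N → Cm d → L1 d} {g : E → ℂ}
    (hb' : F1On S U' b') (hg : SmOn S (U ∩ U') g)
    (hg' : IsD0 S (U ∩ U') g (fun i z => b i z - b' i z)) {i i' : Fin S.N} {z z' : Cm d}
    (hz : z ∈ ball (0 : Cm d) 3) (hz' : z' ∈ ball (0 : Cm d) 3) (hzz : S.σ i z = S.σ i' z')
    (hzU : S.σ i z ∈ U) (hzU' : S.σ i z ∈ U') {F F' : Cm d → CZ}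
    (hF : Lc S V β' g' ix i (b i) F z) (hF' : Lc S V β' g' ix i' (b' i') F' z') {H : E → CZ}
    (hH : ∀ᶠ u in 𝓝 z, ∀ u', S.σ i u = S.σ i' u' → u' ∈ ball (0 : Cm d) 3 →
      H (S.σ i u) = q (g (S.σ i u)) - F u + F' u') :
    ∀ᶠ u in 𝓝 z, H (S.σ i u) = H (S.σ i z) := by
  obtain ⟨j, hj, P, hP⟩ := hF
  obtain ⟨k, hk, P', hP'⟩ := hF'
  obtain ⟨θ, hθ, hθz, hθe⟩ := S.hol i i' z hz z' hz' 1 (by rw [one_smul, hzz])
  simp only [one_smul] at hθe
  rw [← hzz] at hk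
  have hθc : Tendsto θ (𝓝 z) (𝓝 z') := by
    have := hθ.continuousAt.tendsto
    rwa [hθz] at this
  have t := tends S i hz
  have hzB : ∀ᶠ w in 𝓝 z, w ∈ ball (0 : Cm d) 3 := isOpen_ball.mem_nhds hz
  have hev : ∀ᶠ w in 𝓝 z, (w ∈ ball (0 : Cm d) 3 ∧ θ w ∈ ball (0 : Cm d) 3) ∧
      (S.σ i w ∈ V j ∧ S.σ i w ∈ V k) ∧ (S.σ i w ∈ U ∧ S.σ i w ∈ U') :=
    (hzB.and (hθc.eventually (isOpen_ball.mem_nhds hz'))).and
      (((t.eventually ((hV j).mem_nhds hj)).and (t.eventually ((hV k).mem_nhds hk))).and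
      ((t.eventually (hU.mem_nhds hzU)).and (t.eventually (hU'.mem_nhds hzU'))))
  have hall := ((hP.and (hθc.eventually hP')).and
    (hev.and (eventually_eventually_nhds.2 hθe))).and hθ.eventually_analyticAt
  have hD : ∀ᶠ w in 𝓝 z, HasFDerivAt (fun w => g (S.σ i w) - P w + P' (θ w) - g' j k (S.σ i w))
      (0 : Cm d →L[ℝ] ℂ) w := by
    filter_upwards [hall] with w hw
    obtain ⟨⟨⟨hw1, hw2⟩, ⟨⟨hw3, hθw3⟩, ⟨hwj, hwk⟩, hwU, hwU'⟩, hwθ⟩, hwa⟩ := hw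
    have hθs : ContDiffAt ℝ ∞ θ w := hwa.contDiffAt.restrict_scalars ℝ
    have hTr : Tr S S id i i' w (θ w) θ := ⟨hθs, rfl, hwθ⟩
    have hθd : HasFDerivAt θ (fderiv ℝ θ w) w := (hθs.differentiableAt (by simp)).hasFDerivAt
    have e1 := ((hg i w hw3 ⟨hwU, hwU'⟩).differentiableAt (by simp)).hasFDerivAt
    rw [hg' i w hw3 ⟨hwU, hwU'⟩] at e1
    have e2 := (((h2 j k).1 i w hw3 ⟨hwj, hwk⟩).differentiableAt (by simp)).hasFDerivAt
    rw [(h2 j k).2 i w hw3 ⟨hwj, hwk⟩] at e2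
    have e3 : HasFDerivAt (fun w => P' (θ w)) ((b' i' (θ w) - β' k i' (θ w)).comp (fderiv ℝ θ w)) w :=
      hw2.1.comp w hθd
    refine (((e1.sub hw1.1).add e3).sub e2).congr_fderiv ?_
    ext v
    have c1 := hb'.change i i' w hw3 (θ w) hθw3 hwU' θ hTr v
    have c2 := (h1 k).1.change i i' w hw3 (θ w) hθw3 hwk θ hTr v
    show (b i w v - b' i w v) - (b i w v - β' j i w v) + (b' i' (θ w) (fderiv ℝ θ w v) -
      β' k i' (θ w) (fderiv ℝ θ w v)) - (β' j i w v - β' k i w v) = 0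
    rw [← c1, ← c2]; ring
  have hval : ∀ᶠ w in 𝓝 z,
      H (S.σ i w) = q (g (S.σ i w) - P w + P' (θ w) - g' j k (S.σ i w)) := by
    filter_upwards [hall, hH] with w hw hHw
    obtain ⟨⟨⟨hw1, hw2⟩, ⟨⟨hw3, hθw3⟩, ⟨hwj, hwk⟩, hwU, hwU'⟩, hwθ⟩, hwa⟩ := hw
    have hσ := hwθ.self_of_nhds
    rw [hHw (θ w) hσ hθw3]
    obtain ⟨m, hm⟩ := h3 (ix (S.σ i w)) j k (S.σ i w) ⟨⟨hix _, hwj⟩, hwk⟩
    have e1 : F w = q (P w) - q (g' (ix (S.σ i w)) j (S.σ i w)) := by rw [← hw1.2]; abel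
    have e2 : F' (θ w) = q (P' (θ w)) - q (g' (ix (S.σ i w)) k (S.σ i w)) := by
      rw [← hw2.2, ← hσ]; abel
    have e3 := congrArg q hm
    rw [q_int, map_add, map_sub] at e3
    rw [e1, e2, map_sub, map_add, map_sub, ← sub_eq_zero, ← e3]
    abel
  filter_upwards [hval, ev_const hD] with w hw hc
  rw [hw, hval.self_of_nhds, hc]

end

/-- **Block A7.** -/
theorem intCob : IntCobStmt := by
  classical
  intro d E Γ _ _ _ _ _ _ S A _ G α β g c hd hα hint hco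
  obtain ⟨ι, V, β', g', hV, hcov, h1, h2, h3⟩ := hint
  choose ix hix using hcov
  -- sections over the members of the covering
  have hex : ∀ a, ∃ F : Cm d → CZ, ∀ z ∈ eb (G.c a) (G.r a),
      Lc S V β' g' ix (G.i a) (β a (G.i a)) F z := by
    intro a
    have hU : ∀ z ∈ eb (G.c a) (G.r a), S.σ (G.i a) z ∈ G.U a := fun z hz => ⟨z, hz, rfl⟩
    have T := tors (S := S) (V := V) (β' := β') (g' := g') (ix := ix) (i := G.i a)
      (b := β a (G.i a)) (α := α) (eb_open (G.c a) (G.r a)) (Good_sub3 G a) hV hix h1 h2 h3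
      (fun z hz => (hco.f1 a).smooth _ z (Good_sub3 G a hz) (hU z hz))
      (fun z hz => hco.d1 a _ z (Good_sub3 G a hz) (hU z hz))
    obtain ⟨F, hF⟩ := T.main (eq2_cont (G.c a)) (eq2_convex _) (eq2_compact _) (eq2_self _)
      (fun z hz => eq2_pos hz) (R := G.r a ^ 2) (fun z hz => hz)
    exact ⟨F, fun z hz => hF z hz⟩
  choose F hF using hex
  set Φ : A → E → CZ := fun a e =>
    if h : ∃ z ∈ eb (G.c a) (G.r a), S.σ (G.i a) z = e then F a h.choose else 0 with hΦ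
  have hΦe : ∀ a, ∀ z ∈ eb (G.c a) (G.r a), Φ a (S.σ (G.i a) z) = F a z := by
    intro a z hz
    have hh : ∃ z' ∈ eb (G.c a) (G.r a), S.σ (G.i a) z' = S.σ (G.i a) z := ⟨z, hz, rfl⟩
    simp only [hΦ, dif_pos hh]
    rw [inj' S _ (Good_sub3 G a hh.choose_spec.1) (Good_sub3 G a hz) hh.choose_spec.2]
  -- the constants
  have hconst : ∀ a b, ∃ x : ℂ, ∀ e ∈ G.U a ∩ G.U b, q (g a b e) - Φ a e + Φ b e = q x := by
    intro a b
    set W : Set (Cm d) := {z | z ∈ eb (G.c a) (G.r a) ∧ S.σ (G.i a) z ∈ G.U b} with hW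
    have hWc : Convex ℝ W := G.conv a b
    by_cases hne : W.Nonempty
    · obtain ⟨z0, hz0⟩ := hne
      set H : E → CZ := fun e => q (g a b e) - Φ a e + Φ b e with hH
      obtain ⟨x, hx⟩ := q_surj (H (S.σ (G.i a) z0))
      refine ⟨x, ?_⟩
      rintro e ⟨⟨z, hz, rfl⟩, hzb⟩
      rw [hx]
      refine eq_of_locConst hWc.isPreconnected (fun z => H (S.σ (G.i a) z)) ?_ ⟨hz, hzb⟩ hz0
      rintro y ⟨hy, y', hy', hyy⟩
      have hy3 := Good_sub3 G a hy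
      have hy3' := Good_sub3 G b hy'
      refine comp_const (α := α) hV hix h1 h2 h3 (U_open G a) (U_open G b) (hco.f1 b) (hco.sm a b)
        (hco.d0 a b) hy3 hy3' hyy.symm ⟨y, hy, rfl⟩ ⟨y', hy', hyy⟩ (hF a y hy) (hF b y' hy') ?_
      have hUb : ∀ᶠ u in 𝓝 y, S.σ (G.i a) u ∈ G.U b :=
        (tends S _ hy3).eventually ((U_open G b).mem_nhds ⟨y', hy', hyy⟩)
      filter_upwards [(eb_open _ _).mem_nhds hy, hUb] with u hu huU u' huu hu'3
      obtain ⟨u'', hu'', hu2⟩ := huU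
      have : u'' = u' := inj' S _ (Good_sub3 G b hu'') hu'3 (hu2.trans huu)
      subst this
      show q (g a b (S.σ (G.i a) u)) - Φ a (S.σ (G.i a) u) + Φ b (S.σ (G.i a) u) = _
      rw [hΦe a u hu]
      conv_lhs => rw [show Φ b (S.σ (G.i a) u) = F b u'' by rw [huu, hΦe b u'' hu'']]
    · refine ⟨0, ?_⟩
      rintro e ⟨⟨z, hz, rfl⟩, hzb⟩
      exact absurd ⟨z, hz, hzb⟩ hne
  choose h hh using hconst
  have hint : ∀ a b e, K3 G.U a b e → ∃ m : ℤ, c a b e - (h b e - h a e + h a b) = m := by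
    rintro a b e ⟨p, ⟨hpa, hpb⟩, hpe⟩
    rw [← q_zero_iff, ← hco.co a b e p ⟨⟨hpa, hpb⟩, hpe⟩]
    simp only [map_sub, map_add, ← hh b e p ⟨hpb, hpe⟩, ← hh a e p ⟨hpa, hpe⟩,
      ← hh a b p ⟨hpa, hpb⟩]
    abel
  set m : A → A → A → ℤ := fun a b e => if hk : K3 G.U a b e then (hint a b e hk).choose else 0
    with hm
  have hme : ∀ a b e, K3 G.U a b e → (m a b e : ℂ) = c a b e - (h b e - h a e + h a b) := by
    intro a b e hk
    simp only [hm, dif_pos hk]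
    exact (hint a b e hk).choose_spec.symm
  refine ⟨m, ⟨fun a b e hk => by simp only [hm, dif_neg hk], ?_⟩, h, ?_⟩
  · rintro a b e f ⟨p, ⟨⟨hpa, hpb⟩, hpe⟩, hpf⟩
    have k1 := hme b e f ⟨p, ⟨hpb, hpe⟩, hpf⟩
    have k2 := hme a e f ⟨p, ⟨hpa, hpe⟩, hpf⟩
    have k3 := hme a b f ⟨p, ⟨hpa, hpb⟩, hpf⟩
    have k4 := hme a b e ⟨p, ⟨hpa, hpb⟩, hpe⟩
    have c1 := hco.co b e f p ⟨⟨hpb, hpe⟩, hpf⟩
    have c2 := hco.co a e f p ⟨⟨hpa, hpe⟩, hpf⟩
    have c3 := hco.co a b f p ⟨⟨hpa, hpb⟩, hpf⟩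
    have c4 := hco.co a b e p ⟨⟨hpa, hpb⟩, hpe⟩
    have : ((m b e f - m a e f + m a b f - m a b e : ℤ) : ℂ) = 0 := by
      push_cast
      rw [k1, k2, k3, k4, ← c1, ← c2, ← c3, ← c4]; ring
    exact_mod_cast this
  · intro a b e hk
    show c a b e - (m a b e : ℂ) = h b e - h a e + h a b
    rw [hme a b e hk]; ring

end Vale.Agent.P281.H751.TS
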