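import Vale.Agent.P281.H751.TS.Cl
import Vale.Agent.P281.H834.TS.Inv
import Vale.Agent.P281.H702.TS.Seg
import Vale.Agent.P281.H864.TS.Pull

/-!
# P281, project T-S (helper64), block B1 from `cl_mem` (helper751): local primitives
-/

open Set Filter Metric MeasureTheory Vale.Agent.P272.K Vale.Agent.P281.H64.TK
  Vale.Agent.P281.H64.TK.TS
open Vale.Agent.P281.H834.TS (iv tr iv_σ iv_smooth iv_eventually σ_tendsto tr_analyticAt tr_eq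
  tr_eventually)
open Vale.Agent.P281.H702.TS (cb cb_apply cb_smooth cb_d exists_prim_fam seg_ftc
  analyticAt_segInt)
open scoped Topology ContDiff ComplexConjugate

noncomputable section

namespace Vale.Agent.P281.H751.TS

theorem an_comp {X A B C : Type*} [NormedAddCommGroup X] [NormedSpace ℂ X]
    [NormedAddCommGroup A] [NormedSpace ℂ A] [NormedAddCommGroup B] [NormedSpace ℂ B]
    [NormedAddCommGroup C] [NormedSpace ℂ C] {F : X → (A →L[ℂ] B)} {G : X → (C →L[ℂ] A)} {x : X}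
    (hF : AnalyticAt ℂ F x) (hG : AnalyticAt ℂ G x) :
    AnalyticAt ℂ (fun x => (F x).comp (G x)) x :=
  AnalyticAt.fun_comp (g := fun q : (A →L[ℂ] B) × (C →L[ℂ] A) =>
    ContinuousLinearMap.compL ℂ C A B q.1 q.2) (f := fun x => (F x, G x))
    ((ContinuousLinearMap.compL ℂ C A B).analyticAt_bilinear (F x, G x)) (hF.prod hG)

section
variable {p : ℕ} {E Γ : Type} [TopologicalSpace E] [Group Γ] [MulAction Γ E] (𝓕 : Fam p 2 E Γ)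

/-- The transition between different times. -/
theorem tr_times {i j : Fin 𝓕.N} {t s : Cm p} (ht : t ∈ 𝓕.T) (hs : s ∈ 𝓕.T) {z w : Cm 2}
    (hz : z ∈ ball (0 : Cm 2) 3) (hw : w ∈ ball (0 : Cm 2) 3) (h : 𝓕.σ i t z = 𝓕.σ j s w) :
    Tr (𝓕.at t ht) (𝓕.at s hs) id i j z w (fun u => iv 𝓕 j s (𝓕.σ i t u)) := by
  obtain ⟨h1, h2⟩ := iv_smooth 𝓕 ht hs hz hw h
  refine ⟨h1, ?_, h2⟩
  show iv 𝓕 j s (𝓕.σ i t z) = w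
  rw [h, iv_σ 𝓕 hs hw]

/-- The primitive `b dz_1` in the sheet `j` at time `t`, in the sheets at time `t₀`. -/
def bt (b : Cm p × Cm 2 → ℂ) (t₀ : Cm p) (j : Fin 𝓕.N) (t : Cm p) (k : Fin 𝓕.N) (z : Cm 2) :
    L1 2 :=
  (cb b t (iv 𝓕 j t (𝓕.σ k t₀ z))).comp (fderiv ℝ (fun u => iv 𝓕 j t (𝓕.σ k t₀ u)) z)

/-- The chain rule for transitions between times. -/
theorem fd_iv {i j k : Fin 𝓕.N} {r s t : Cm p} (hs : s ∈ 𝓕.T) (ht : t ∈ 𝓕.T) {x y z : Cm 2}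
    (hy : y ∈ ball (0 : Cm 2) 3) (hz : z ∈ ball (0 : Cm 2) 3)
    (h' : 𝓕.σ j s y = 𝓕.σ k t z) {χ : Cm 2 → Cm 2} (hχ : DifferentiableAt ℝ χ x) (hχy : χ x = y)
    (he : ∀ᶠ u in 𝓝 x, 𝓕.σ i r u = 𝓕.σ j s (χ u)) :
    fderiv ℝ (fun u => iv 𝓕 k t (𝓕.σ i r u)) x =
      (fderiv ℝ (fun u => iv 𝓕 k t (𝓕.σ j s u)) y).comp (fderiv ℝ χ x) := by
  have e : (fun u => iv 𝓕 k t (𝓕.σ i r u)) =ᶠ[𝓝 x] (fun u => iv 𝓕 k t (𝓕.σ j s u)) ∘ χ := by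
    filter_upwards [he] with u hu
    simp only [Function.comp, hu]
  rw [e.fderiv_eq]
  have h1 := ((iv_smooth 𝓕 hs ht hy hz h').1).differentiableAt (by simp)
  rw [← hχy] at h1 ⊢
  exact fderiv_comp x h1 hχ

theorem bt_form {t₀ t : Cm p} (ht₀ : t₀ ∈ 𝓕.T) (ht : t ∈ 𝓕.T) {U : Set E} {j : Fin 𝓕.N}
    (hU : ∀ e ∈ U, ∃ w ∈ ball (0 : Cm 2) 3, 𝓕.σ j t w = e) {b s : Cm p × Cm 2 → ℂ}
    (hb : ∀ z ∈ ball (0 : Cm 2) 3, AnalyticAt ℂ b (t, z))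
    (hs : ∀ z ∈ ball (0 : Cm 2) 3, fderiv ℂ (fun z => b (t, z)) z (Pi.single 0 1) = s (t, z))
    {α : Fin 𝓕.N → Cm 2 → L2 2}
    (hα : ∀ k, ∀ z ∈ ball (0 : Cm 2) 3, ∀ w ∈ ball (0 : Cm 2) 3, ∀ ψ,
      Tr (𝓕.at t₀ ht₀) (𝓕.at t ht) id k j z w ψ →
      ∀ u v, α k z u v = sf2 (s (t, w)) (fderiv ℝ ψ z u) (fderiv ℝ ψ z v)) :
    F1On (𝓕.at t₀ ht₀) U (bt 𝓕 b t₀ j t) ∧ IsD1 (𝓕.at t₀ ht₀) U (bt 𝓕 b t₀ j t) α := by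
  have key : ∀ (k : Fin 𝓕.N) (z : Cm 2), z ∈ ball (0 : Cm 2) 3 → 𝓕.σ k t₀ z ∈ U →
      ∃ w ∈ ball (0 : Cm 2) 3, 𝓕.σ k t₀ z = 𝓕.σ j t w ∧ iv 𝓕 j t (𝓕.σ k t₀ z) = w ∧
        ContDiffAt ℝ ∞ (fun u => iv 𝓕 j t (𝓕.σ k t₀ u)) z := by
    intro k z hz hzU
    obtain ⟨w, hw, hwz⟩ := hU _ hzU
    refine ⟨w, hw, hwz.symm, ?_, (iv_smooth 𝓕 ht₀ ht hz hw hwz.symm).1⟩
    rw [← hwz, iv_σ 𝓕 ht hw]
  refine ⟨⟨?_, ?_⟩, ?_⟩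
  · intro k z hz hzU
    obtain ⟨w, hw, h1, h2, h3⟩ := key k z hz hzU
    exact H864.TS.sm1 h3 (by rw [h2]; exact cb_smooth (hb w hw))
  · intro k k' z hz z' hz' hzU χ hχ v
    obtain ⟨w, hw, h1, h2, h3⟩ := key k z hz hzU
    have h0 : 𝓕.σ k t₀ z = 𝓕.σ k' t₀ z' := by
      have := hχ.2.2.self_of_nhds
      rw [hχ.2.1] at this
      exact this
    show (cb b t (iv 𝓕 j t (𝓕.σ k t₀ z))) (fderiv ℝ (fun u => iv 𝓕 j t (𝓕.σ k t₀ u)) z v) =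
      (cb b t (iv 𝓕 j t (𝓕.σ k' t₀ z')))
        (fderiv ℝ (fun u => iv 𝓕 j t (𝓕.σ k' t₀ u)) z' (fderiv ℝ χ z v))
    rw [fd_iv 𝓕 (j := k') (s := t₀) ht₀ ht hz' hw (h0 ▸ h1) (hχ.1.differentiableAt (by simp))
      hχ.2.1 hχ.2.2, h0]
    rfl
  · intro k z hz hzU u v
    obtain ⟨w, hw, h1, h2, h3⟩ := key k z hz hzU
    have hc : ContDiffAt ℝ ∞ (cb b t) (iv 𝓕 j t (𝓕.σ k t₀ z)) := by
      rw [h2]; exact cb_smooth (hb w hw)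
    have e1 := H864.TS.fd1 h3 hc u v
    have e2 := H864.TS.fd1 h3 hc v u
    have e3 := H864.TS.sd_symm h3 u v
    have e4 := cb_d (hb w hw) (hs w hw) (fderiv ℝ (fun u => iv 𝓕 j t (𝓕.σ k t₀ u)) z u)
      (fderiv ℝ (fun u => iv 𝓕 j t (𝓕.σ k t₀ u)) z v)
    have e5 := hα k z hz w hw _ (tr_times 𝓕 ht₀ ht hz hw h1) u v
    show fderiv ℝ (fun u => (cb b t (iv 𝓕 j t (𝓕.σ k t₀ u))).comp
      (fderiv ℝ (fun u => iv 𝓕 j t (𝓕.σ k t₀ u)) u)) z u v -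
      fderiv ℝ (fun u => (cb b t (iv 𝓕 j t (𝓕.σ k t₀ u))).comp
      (fderiv ℝ (fun u => iv 𝓕 j t (𝓕.σ k t₀ u)) u)) z v u = α k z u v
    rw [e1, e2, e5, ← e4, e3, h2]
    ring

/-- The derivative of a primitive at time `t`, in the sheets at time `t`. -/
theorem hasFD [Subsingleton Γ] {t₀ t : Cm p} (ht₀ : t₀ ∈ 𝓕.T) (ht : t ∈ 𝓕.T) {W : Set E}
    {g : E → ℂ} {ja jb : Fin 𝓕.N} {ba bb : Cm p × Cm 2 → ℂ} (hg : SmOn (𝓕.at t₀ ht₀) W g)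
    (hg' : IsD0 (𝓕.at t₀ ht₀) W g (fun k z => bt 𝓕 ba t₀ ja t k z - bt 𝓕 bb t₀ jb t k z))
    {i : Fin 𝓕.N} {w wa wb : Cm 2} (hw : w ∈ ball (0 : Cm 2) 3) (hwa : wa ∈ ball (0 : Cm 2) 3)
    (hwb : wb ∈ ball (0 : Cm 2) 3) (hW : 𝓕.σ i t w ∈ W) (ha : 𝓕.σ i t w = 𝓕.σ ja t wa)
    (hb : 𝓕.σ i t w = 𝓕.σ jb t wb) :
    HasFDerivAt (fun u => g (𝓕.σ i t u))
      ((cb ba t wa).comp (fderiv ℝ (fun u => iv 𝓕 ja t (𝓕.σ i t u)) w) -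
        (cb bb t wb).comp (fderiv ℝ (fun u => iv 𝓕 jb t (𝓕.σ i t u)) w)) w := by
  obtain ⟨k, v, hv, hkv⟩ : ∃ (k : Fin 𝓕.N) (v : Cm 2), v ∈ ball (0 : Cm 2) 3 ∧
      𝓕.σ k t₀ v = 𝓕.σ i t w := H864.TS.cov (𝓕.at t₀ ht₀) (𝓕.σ i t w)
  obtain ⟨h1, h2⟩ := iv_smooth 𝓕 ht ht₀ hw hv hkv.symm
  have h3 : iv 𝓕 k t₀ (𝓕.σ i t w) = v := by rw [← hkv, iv_σ 𝓕 ht₀ hv]
  have hd1 := h1.differentiableAt (by simp)
  have hkW : 𝓕.σ k t₀ v ∈ W := by rw [hkv]; exact hW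
  have e1 : HasFDerivAt (fun u => g (𝓕.σ k t₀ u))
      (bt 𝓕 ba t₀ ja t k v - bt 𝓕 bb t₀ jb t k v) v := by
    have h4 := ((hg k v hv hkW).differentiableAt (by simp)).hasFDerivAt
    rw [hg' k v hv hkW] at h4
    exact h4
  rw [← h3] at e1
  have e2 := e1.comp w hd1.hasFDerivAt
  refine (e2.congr_of_eventuallyEq ?_).congr_fderiv ?_
  · filter_upwards [h2] with u hu
    simp only [Function.comp]
    rw [← hu]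
  · rw [h3]
    have c : ∀ (b : Cm p × Cm 2 → ℂ) (j : Fin 𝓕.N) (wj : Cm 2), wj ∈ ball (0 : Cm 2) 3 →
        𝓕.σ i t w = 𝓕.σ j t wj → (bt 𝓕 b t₀ j t k v).comp
          (fderiv ℝ (fun u => iv 𝓕 k t₀ (𝓕.σ i t u)) w) =
          (cb b t wj).comp (fderiv ℝ (fun u => iv 𝓕 j t (𝓕.σ i t u)) w) := by
      intro b j wj hwj hj
      have hkj : 𝓕.σ k t₀ v = 𝓕.σ j t wj := hkv.trans hj
      rw [fd_iv 𝓕 (j := k) (s := t₀) ht₀ ht hv hwj hkj hd1 h3 h2]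
      unfold bt
      rw [hkj, iv_σ 𝓕 ht hwj]
      rfl
    rw [← c ba ja wa hwa ha, ← c bb jb wb hwb hb]
    rfl

/-- The form `b dz_1`, complex linear. -/
def cC (b : Cm p × Cm 2 → ℂ) (q : Cm p × Cm 2) : Cm 2 →L[ℂ] ℂ :=
  b q • (ContinuousLinearMap.proj (R := ℂ) (φ := fun _ : Fin 2 => ℂ) 1)

/-- The form `b dz_1` of the sheet `j`, in the sheet `i`, at the same time. -/
def gm (b : Cm p × Cm 2 → ℂ) (i j : Fin 𝓕.N) (q : Cm p × Cm 2) : Cm 2 →L[ℂ] ℂ :=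
  (cC b (q.1, tr 𝓕 i j q)).comp
    ((fderiv ℂ (tr 𝓕 i j) q).comp (ContinuousLinearMap.inr ℂ (Cm p) (Cm 2)))

theorem gm_analytic {b : Cm p × Cm 2 → ℂ} {i j : Fin 𝓕.N} {t : Cm p} (ht : t ∈ 𝓕.T)
    {z w : Cm 2} (hz : z ∈ ball (0 : Cm 2) 3) (hw : w ∈ ball (0 : Cm 2) 3)
    (h : 𝓕.σ i t z = 𝓕.σ j t w) (hb : AnalyticAt ℂ b (t, w)) :
    AnalyticAt ℂ (gm 𝓕 b i j) (t, z) := by
  have h1 := tr_analyticAt 𝓕 ht hz hw h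
  have h2 : tr 𝓕 i j (t, z) = w := tr_eq 𝓕 ht hw h
  have h3 : AnalyticAt ℂ (fun q : Cm p × Cm 2 => (q.1, tr 𝓕 i j q)) (t, z) :=
    analyticAt_fst.prod h1
  have h4 : AnalyticAt ℂ (fun q : Cm p × Cm 2 => b (q.1, tr 𝓕 i j q)) (t, z) :=
    AnalyticAt.fun_comp (g := b) (by simpa only [h2] using hb) h3
  have h5 : AnalyticAt ℂ (fun q : Cm p × Cm 2 => cC b (q.1, tr 𝓕 i j q)) (t, z) :=
    h4.smul analyticAt_const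
  have h6 : AnalyticAt ℂ (fderiv ℂ (tr 𝓕 i j)) (t, z) := h1.fderiv
  have h7 : AnalyticAt ℂ (fun q => (fderiv ℂ (tr 𝓕 i j) q).comp
      (ContinuousLinearMap.inr ℂ (Cm p) (Cm 2))) (t, z) := an_comp h6 analyticAt_const
  exact an_comp h5 h7

theorem gm_eq {b : Cm p × Cm 2 → ℂ} {i j : Fin 𝓕.N} {t : Cm p} (ht : t ∈ 𝓕.T)
    {z w : Cm 2} (hz : z ∈ ball (0 : Cm 2) 3) (hw : w ∈ ball (0 : Cm 2) 3)
    (h : 𝓕.σ i t z = 𝓕.σ j t w) :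
    (gm 𝓕 b i j (t, z)).restrictScalars ℝ =
      (cb b t w).comp (fderiv ℝ (fun u => iv 𝓕 j t (𝓕.σ i t u)) z) := by
  have h1 := (tr_analyticAt 𝓕 ht hz hw h).differentiableAt.hasFDerivAt
  have h2 : tr 𝓕 i j (t, z) = w := tr_eq 𝓕 ht hw h
  have h3 : HasFDerivAt (fun u : Cm 2 => tr 𝓕 i j (t, u))
      ((fderiv ℂ (tr 𝓕 i j) (t, z)).comp (ContinuousLinearMap.inr ℂ (Cm p) (Cm 2))) z :=
    h1.comp z (hasFDerivAt_prodMk_right t z)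
  have h4 : fderiv ℝ (fun u => iv 𝓕 j t (𝓕.σ i t u)) z =
      ((fderiv ℂ (tr 𝓕 i j) (t, z)).comp
        (ContinuousLinearMap.inr ℂ (Cm p) (Cm 2))).restrictScalars ℝ :=
    (h3.restrictScalars ℝ).fderiv
  rw [h4]
  ext v
  show cC b (t, tr 𝓕 i j (t, z)) _ = _
  rw [h2]
  rfl

end

end Vale.Agent.P281.H751.TS
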