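import Vale.Agent.P281.H751.TS.Par
import Vale.Agent.P281.H740.TS.Mark
import Vale.Agent.P281.H559.TS.A1
import Vale.Agent.P281.H702.TS.A2
import Vale.Agent.P281.H352.TS.A3
import Vale.Agent.P281.H702.TS.A4a
import Vale.Agent.P281.H89.TS.A4b

/-!
# P281, project T-S (helper64), common core of blocks B1, B2 (helper751)

`cl_mem`: the coordinates of the class of `α t` are in `O`, if `α t` has local primitives with
Čech cocycle in `O`.
-/

open Set Filter Metric MeasureTheory Vale.Agent.P272.K Vale.Agent.P281.H64.TK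
  Vale.Agent.P281.H64.TK.TS
open scoped Topology ContDiff ComplexConjugate

noncomputable section

namespace Vale.Agent.P281.H751.TS

theorem poin : PoinStmt := Vale.Agent.P281.H352.TS.poinStmt
theorem good : GoodStmt := Vale.Agent.P281.H559.TS.good_stmt
theorem part : PartStmt := Vale.Agent.P281.H702.TS.part
theorem coEx : CoExStmt := Vale.Agent.P281.H702.TS.coEx poin
theorem coCob : CoCobStmt := Vale.Agent.P281.H89.TS.coCob poin part

section
variable {T : Type} {l : Filter T} {O : Submodule ℂ (T → ℂ)}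

/-- A linear function of finitely many functions in `O` is in `O`. -/
theorem lin_mem {J : Type} [Fintype J] (L : (J → ℂ) →ₗ[ℂ] ℂ) (w : J → T → ℂ)
    (h : ∀ j, w j ∈ O) : (fun t => L (fun j => w j t)) ∈ O := by
  classical
  have e : (fun t => L (fun j => w j t)) =
      ∑ j, (L fun i => if j = i then 1 else 0) • w j := by
    funext t
    rw [LinearMap.pi_apply_eq_sum_univ L]
    simp only [Finset.sum_apply, Pi.smul_apply, smul_eq_mul]
    exact Finset.sum_congr rfl fun j _ => mul_comm _ _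
  rw [e]
  exact O.sum_mem fun j _ => O.smul_mem _ (h j)

variable {d : ℕ} {E Γ : Type} [TopologicalSpace E] [T2Space E] [Group Γ] [Subsingleton Γ]
  [MulAction Γ E] [ContinuousConstSMul Γ E] {ι : Type}

/-- **The classes of a family, modulo `O`.** -/
theorem cl_mem {S : Sheets d E Γ} (hd : 0 < d) {n : ℕ} (M : Mark2 S n)
    (hO : ∀ f g : T → ℂ, f ∈ O → (∀ᶠ t in l, f t = g t) → g ∈ O)
    {α : T → Fin S.N → Cm d → L2 d} (hα : ∀ᶠ t in l, Cl2 S (α t))
    {V : ι → Set E} {β' : ι → T → Fin S.N → Cm d → L1 d} {g' : ι → ι → T → E → ℂ}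
    (hV : ∀ a, IsOpen (V a)) (hcov : ∀ e, ∃ i, e ∈ V i)
    (h1 : ∀ a, ∀ᶠ t in l, F1On S (V a) (β' a t) ∧ IsD1 S (V a) (β' a t) (α t))
    (h2 : ∀ a b, ∀ᶠ t in l, SmOn S (V a ∩ V b) (g' a b t) ∧
      IsD0 S (V a ∩ V b) (g' a b t) (fun i z => β' a t i z - β' b t i z))
    (h3 : ∀ a b c, ∀ e ∈ V a ∩ V b ∩ V c,
      (fun t => g' b c t e - g' a c t e + g' a b t e) ∈ O) (k : Fin n) :
    (fun t => M.cl (α t) k) ∈ O := by
  classical
  obtain ⟨A, iA, G, -⟩ := good d E Γ S hd 1 one_pos
  choose βb gb cb hcb using fun k => coEx d E Γ S A G (M.b k) hd (M.closed k)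
  have hco' : ∀ k, ∃ β g, IsCo S G.U (M.b k) β g (cb k) := fun k => ⟨_, _, hcb k⟩
  -- Čech data of `α t`
  have hdat : ∀ t, ∃ (β : A → Fin S.N → Cm d → L1 d) (g : A → A → E → ℂ) (c : A → A → A → ℂ),
      Cl2 S (α t) → IsCo S G.U (α t) β g c := by
    intro t
    by_cases h : Cl2 S (α t)
    · obtain ⟨β, g, c, hc⟩ := coEx d E Γ S A G (α t) hd h
      exact ⟨β, g, c, fun _ => hc⟩
    · exact ⟨0, 0, 0, fun h' => absurd h' h⟩
  choose β g c hc using hdat
  have hco : ∀ᶠ t in l, IsCo S G.U (α t) (β t) (g t) (c t) := hα.mono hc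
  obtain ⟨h, hh⟩ := cob_mod G hO hco hV hcov h1 h2 h3
  -- the coboundaries
  set J := A × A × A with hJ
  let B : Submodule ℂ (J → ℂ) :=
    { carrier := {w | IsCob (K3 G.U) fun a b e => w (a, b, e)}
      zero_mem' := ⟨fun _ _ => 0, fun a b e _ => by simp⟩
      add_mem' := by
        rintro w w' ⟨x, hx⟩ ⟨x', hx'⟩
        refine ⟨fun a b => x a b + x' a b, fun a b e hK => ?_⟩
        show w (a, b, e) + w' (a, b, e) = (x b e + x' b e) - (x a e + x' a e) + (x a b + x' a b)
        have e1 : w (a, b, e) = x b e - x a e + x a b := hx a b e hK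
        have e2 : w' (a, b, e) = x' b e - x' a e + x' a b := hx' a b e hK
        rw [e1, e2]; ring
      smul_mem' := by
        rintro r w ⟨x, hx⟩
        refine ⟨fun a b => r * x a b, fun a b e hK => ?_⟩
        show r * w (a, b, e) = r * x b e - r * x a e + r * x a b
        have e1 : w (a, b, e) = x b e - x a e + x a b := hx a b e hK
        rw [e1]; ring }
  have hB : ∀ w : J → ℂ, w ∈ B ↔ IsCob (K3 G.U) fun a b e => w (a, b, e) := fun _ => Iff.rfl
  -- the classes of the basis are independent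
  let Lm : (Fin n → ℂ) →ₗ[ℂ] (J → ℂ) :=
    { toFun := fun x j => ∑ k, x k * cb k j.1 j.2.1 j.2.2
      map_add' := fun x y => by
        funext j
        simp only [Pi.add_apply, add_mul, Finset.sum_add_distrib]
      map_smul' := fun r x => by
        funext j
        simp only [Pi.smul_apply, smul_eq_mul, Finset.mul_sum, RingHom.id_apply, mul_assoc] }
  have hker : LinearMap.ker (B.mkQ ∘ₗ Lm) = ⊥ := by
    rw [LinearMap.ker_eq_bot']
    intro x hx
    have hx' : Lm x ∈ B := by
      rw [LinearMap.comp_apply, Submodule.mkQ_apply, Submodule.Quotient.mk_eq_zero] at hx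
      exact hx
    obtain ⟨k1, β1, g1, k2⟩ := H740.TS.exists_sum (S := S) Finset.univ x M.closed hco'
    exact M.indep x ((coCob d E Γ S A G _ _ _ _ hd k1 k2).2.2 hx')
  obtain ⟨R, hR⟩ := (B.mkQ ∘ₗ Lm).exists_leftInverse_of_injective hker
  -- the coordinates of the class of `α t`
  set m : J → T → ℂ := fun j t => if K3 G.U j.1 j.2.1 j.2.2 then
    c t j.1 j.2.1 j.2.2 - (h j.2.1 j.2.2 t - h j.1 j.2.2 t + h j.1 j.2.1 t) else 0 with hm
  have hmO : ∀ j, m j ∈ O := by
    rintro ⟨a, b, e⟩
    by_cases hK : K3 G.U a b e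
    · have := hh a b e hK
      have e1 : m (a, b, e) = fun t => c t a b e - (h b e t - h a e t + h a b t) := by
        funext t; simp only [hm, if_pos hK]
      rw [e1]; exact this
    · have e1 : m (a, b, e) = 0 := by
        funext t; simp only [hm, if_neg hK]; rfl
      rw [e1]; exact O.zero_mem
  have hcoord : ∀ᶠ t in l, R (B.mkQ fun j => m j t) = M.cl (α t) := by
    filter_upwards [hα] with t ht
    have k1 := (H740.TS.exact_iff coCob G hd M.closed hco' ht (hc t ht) (M.cl (α t))).1 (M.ex _ ht)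
    have k2 : (B.mkQ fun j => m j t) = (B.mkQ ∘ₗ Lm) (M.cl (α t)) := by
      rw [LinearMap.comp_apply, ← sub_eq_zero, ← map_sub, Submodule.mkQ_apply,
        Submodule.Quotient.mk_eq_zero, hB]
      obtain ⟨x, hx⟩ := k1
      refine ⟨fun a b => x a b - h a b t, fun a b e hK => ?_⟩
      have h5 := hx a b e hK
      show m (a, b, e) t - ∑ k, M.cl (α t) k * cb k a b e = _
      have e1 : m (a, b, e) t = c t a b e - (h b e t - h a e t + h a b t) := by
        simp only [hm, if_pos hK]
      rw [e1]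
      linear_combination h5
    rw [k2]
    have := congrArg (fun f => f (M.cl (α t))) hR
    exact this
  refine hO (fun t => (LinearMap.proj k ∘ₗ R ∘ₗ B.mkQ) fun j => m j t) _ (lin_mem _ _ hmO) ?_
  filter_upwards [hcoord] with t ht
  show (R (B.mkQ fun j => m j t)) k = M.cl (α t) k
  rw [ht]

end

end Vale.Agent.P281.H751.TS
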