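import Vale.Agent.P281.H751.TS.A7

/-!
# P281, project T-S (helper64), common core of blocks B1, B2 (helper751)

Block A7 with a parameter `t : T` and `ℂ/ℤ` replaced by `(T → ℂ) / O`.
-/

open Set Filter Metric MeasureTheory Vale.Agent.P272.K Vale.Agent.P281.H64.TK
  Vale.Agent.P281.H64.TK.TS
open scoped Topology ContDiff ComplexConjugate

noncomputable section

namespace Vale.Agent.P281.H751.TS

section
variable {T : Type} {l : Filter T} {O : Submodule ℂ (T → ℂ)}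

theorem q_eq_of_ev (hO : ∀ f g : T → ℂ, f ∈ O → (∀ᶠ t in l, f t = g t) → g ∈ O) {f g : T → ℂ}
    (h : ∀ᶠ t in l, f t = g t) : O.mkQ f = O.mkQ g := by
  rw [← sub_eq_zero, ← map_sub, Submodule.mkQ_apply, Submodule.Quotient.mk_eq_zero]
  refine hO 0 _ O.zero_mem ?_
  filter_upwards [h] with t ht
  simp [ht]

theorem q_zero' {f : T → ℂ} (h : f ∈ O) : O.mkQ f = 0 := by
  rw [Submodule.mkQ_apply, Submodule.Quotient.mk_eq_zero]; exact h

variable {d : ℕ} {E Γ : Type} [TopologicalSpace E] [Group Γ] [MulAction Γ E] {ι : Type}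

/-- `F` is near `z` a section of the torsor of the primitives of `b - β'`, modulo `O`. -/
def Lp (S : Sheets d E Γ) (l : Filter T) (O : Submodule ℂ (T → ℂ)) (V : ι → Set E)
    (β' : ι → T → Fin S.N → Cm d → L1 d) (g' : ι → ι → T → E → ℂ) (ix : E → ι) (i : Fin S.N)
    (b : T → Cm d → L1 d) (F : Cm d → (T → ℂ) ⧸ O) (z : Cm d) : Prop :=
  ∃ j, S.σ i z ∈ V j ∧ ∃ P : T → Cm d → ℂ, ∃ N ∈ 𝓝 z,
    (∀ᶠ t in l, ∀ w ∈ N, HasFDerivAt (P t) (b t w - β' j t i w) w) ∧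
    ∀ w ∈ N, F w + O.mkQ (fun t => g' (ix (S.σ i w)) j t (S.σ i w)) = O.mkQ (fun t => P t w)

theorem tors_par {S : Sheets d E Γ} {V : ι → Set E} {β' : ι → T → Fin S.N → Cm d → L1 d}
    {g' : ι → ι → T → E → ℂ} {ix : E → ι} {i : Fin S.N} {b : T → Cm d → L1 d}
    {α : T → Fin S.N → Cm d → L2 d} {C : Set (Cm d)} (hC : IsOpen C) (hC3 : C ⊆ ball 0 3)
    (hO : ∀ f g : T → ℂ, f ∈ O → (∀ᶠ t in l, f t = g t) → g ∈ O)
    (hV : ∀ a, IsOpen (V a)) (hix : ∀ e, e ∈ V (ix e))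
    (h1 : ∀ a, ∀ᶠ t in l, F1On S (V a) (β' a t) ∧ IsD1 S (V a) (β' a t) (α t))
    (h2 : ∀ a b, ∀ᶠ t in l, SmOn S (V a ∩ V b) (g' a b t) ∧
      IsD0 S (V a ∩ V b) (g' a b t) (fun i z => β' a t i z - β' b t i z))
    (h3 : ∀ a b c, ∀ e ∈ V a ∩ V b ∩ V c,
      (fun t => g' b c t e - g' a c t e + g' a b t e) ∈ O)
    (hb : ∀ᶠ t in l, (∀ z ∈ C, ContDiffAt ℝ ∞ (b t) z) ∧
      ∀ z ∈ C, ∀ u v, fderiv ℝ (b t) z u v - fderiv ℝ (b t) z v u = α t i z u v) :
    Tors C (Lp S l O V β' g' ix i b) where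
  isOpen := hC
  congr := by
    rintro F F' z hz hFF ⟨j, hj, P, N, hN, hP, hPF⟩
    refine ⟨j, hj, P, N ∩ {w | F' w = F w}, inter_mem hN hFF, ?_, fun w hw => ?_⟩
    · filter_upwards [hP] with t ht w hw using ht w hw.1
    · rw [hw.2]; exact hPF w hw.1
  nhds := by
    rintro F z hz ⟨j, hj, P, N, hN, hP, hPF⟩
    filter_upwards [eventually_mem_nhds_iff.2 hN,
      (tends S i (hC3 hz)).eventually ((hV j).mem_nhds hj)] with w hw hwj
    exact ⟨j, hwj, P, N, hw, hP, hPF⟩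
  ex := by
    classical
    intro z hz
    set j := ix (S.σ i z) with hj
    have hzj : S.σ i z ∈ V j := hix _
    have hzC : ∀ᶠ w in 𝓝 z, w ∈ C := hC.mem_nhds hz
    have hzV : ∀ᶠ w in 𝓝 z, S.σ i w ∈ V j := (tends S i (hC3 hz)).eventually ((hV j).mem_nhds hzj)
    obtain ⟨ε, hε, hB⟩ := Metric.mem_nhds_iff.1 (hzC.and hzV)
    have hprim : ∀ᶠ t in l, ∃ P : Cm d → ℂ, ∀ w ∈ ball z ε,
        HasFDerivAt P (b t w - β' j t i w) w := by
      filter_upwards [hb, h1 j] with t hbt h1t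
      have hsm : ∀ w ∈ ball z ε, DifferentiableAt ℝ (b t) w ∧ DifferentiableAt ℝ (β' j t i) w := by
        intro w hw
        exact ⟨(hbt.1 w (hB hw).1).differentiableAt (by simp),
          (h1t.1.smooth i w (hC3 (hB hw).1) (hB hw).2).differentiableAt (by simp)⟩
      have hdf : DifferentiableOn ℝ (fun w => b t w - β' j t i w) (ball z ε) :=
        fun w hw => ((hsm w hw).1.sub (hsm w hw).2).differentiableWithinAt
      obtain ⟨P, hP⟩ := (convex_ball z ε).exists_forall_hasFDerivAt_of_fderiv_symmetric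
        isOpen_ball hdf (by
          intro w hw u v
          have e1 : fderiv ℝ (fun w => b t w - β' j t i w) w =
              fderiv ℝ (b t) w - fderiv ℝ (β' j t i) w := fderiv_fun_sub (hsm w hw).1 (hsm w hw).2
          rw [e1]
          simp only [sub_apply]
          have e2 := hbt.2 w (hB hw).1 u v
          have e3 := h1t.2 i w (hC3 (hB hw).1) (hB hw).2 u v
          linear_combination e2 - e3)
      exact ⟨P, hP⟩
    set P : T → Cm d → ℂ := fun t => if h : ∃ P : Cm d → ℂ, ∀ w ∈ ball z ε,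
        HasFDerivAt P (b t w - β' j t i w) w then h.choose else 0 with hPdef
    refine ⟨fun w => O.mkQ (fun t => P t w) - O.mkQ (fun t => g' (ix (S.σ i w)) j t (S.σ i w)),
      j, hzj, P, ball z ε, ball_mem_nhds z hε, ?_, fun w _ => by simp⟩
    filter_upwards [hprim] with t ht w hw
    have : P t = ht.choose := by simp only [hPdef, dif_pos ht]
    rw [this]
    exact ht.choose_spec w hw
  uniq := by
    rintro F F' z hz ⟨j, hj, P, N, hN, hP, hPF⟩ ⟨k, hk, P', N', hN', hP', hPF'⟩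
    have hzC : ∀ᶠ w in 𝓝 z, w ∈ C := hC.mem_nhds hz
    have hNe : ∀ᶠ w in 𝓝 z, w ∈ N := hN
    have hNe' : ∀ᶠ w in 𝓝 z, w ∈ N' := hN'
    have hev : ∀ᶠ w in 𝓝 z, (w ∈ N ∧ w ∈ N') ∧ w ∈ C ∧ S.σ i w ∈ V j ∧ S.σ i w ∈ V k :=
      (hNe.and hNe').and (hzC.and (((tends S i (hC3 hz)).eventually ((hV j).mem_nhds hj)).and
          ((tends S i (hC3 hz)).eventually ((hV k).mem_nhds hk))))
    obtain ⟨ε, hε, hB⟩ := Metric.mem_nhds_iff.1 hev
    have hD : ∀ᶠ t in l, ∀ w ∈ ball z ε, P' t w - P t w - g' j k t (S.σ i w) =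
        P' t z - P t z - g' j k t (S.σ i z) := by
      filter_upwards [hP, hP', h2 j k] with t ht ht' h2t
      have hd : ∀ w ∈ ball z ε, HasFDerivAt (fun w => P' t w - P t w - g' j k t (S.σ i w))
          (0 : Cm d →L[ℝ] ℂ) w := by
        intro w hw
        obtain ⟨⟨hwN, hwN'⟩, hwC, hwj, hwk⟩ := hB hw
        have hw3 := hC3 hwC
        have e2 := ((h2t.1 i w hw3 ⟨hwj, hwk⟩).differentiableAt (by simp)).hasFDerivAt
        rw [h2t.2 i w hw3 ⟨hwj, hwk⟩] at e2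
        refine (((ht' w hwN').sub (ht w hwN)).sub e2).congr_fderiv ?_
        show b t w - β' k t i w - (b t w - β' j t i w) - (β' j t i w - β' k t i w) = 0
        abel
      intro w hw
      exact isOpen_ball.is_const_of_fderiv_eq_zero (convex_ball z ε).isPreconnected
        (fun u hu => (hd u hu).differentiableAt.differentiableWithinAt)
        (fun u hu => (hd u hu).fderiv) hw (mem_ball_self hε)
    refine ⟨O.mkQ (fun t => P' t z - P t z - g' j k t (S.σ i z)), ?_⟩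
    filter_upwards [ball_mem_nhds z hε] with w hw
    obtain ⟨⟨hwN, hwN'⟩, hwC, hwj, hwk⟩ := hB hw
    have e0 : O.mkQ (fun t => P' t z - P t z - g' j k t (S.σ i z)) =
        O.mkQ (fun t => P' t w) - O.mkQ (fun t => P t w) - O.mkQ (fun t => g' j k t (S.σ i w)) := by
      rw [← map_sub, ← map_sub]
      refine q_eq_of_ev hO ?_
      filter_upwards [hD] with t ht
      exact (ht w hw).symm
    have e1 : F w = O.mkQ (fun t => P t w) - O.mkQ (fun t => g' (ix (S.σ i w)) j t (S.σ i w)) := by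
      rw [← hPF w hwN]; abel
    have e2 : F' w =
        O.mkQ (fun t => P' t w) - O.mkQ (fun t => g' (ix (S.σ i w)) k t (S.σ i w)) := by
      rw [← hPF' w hwN']; abel
    have e3 : O.mkQ (fun t => g' j k t (S.σ i w)) - O.mkQ (fun t => g' (ix (S.σ i w)) k t (S.σ i w))
        + O.mkQ (fun t => g' (ix (S.σ i w)) j t (S.σ i w)) = 0 := by
      rw [← map_sub, ← map_add]
      exact q_zero' (h3 _ _ _ _ ⟨⟨hix _, hwj⟩, hwk⟩)
    rw [e0, e1, e2, ← sub_eq_zero, ← e3]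
    abel
  tr := by
    rintro F z a hz ⟨j, hj, P, N, hN, hP, hPF⟩
    obtain ⟨x, rfl⟩ := O.mkQ_surjective a
    refine ⟨j, hj, fun t w => P t w + x t, N, hN, ?_, fun w hw => ?_⟩
    · filter_upwards [hP] with t ht w hw
      exact (ht w hw).add_const (x t)
    · have e1 : O.mkQ (fun t => P t w + x t) = O.mkQ (fun t => P t w) + O.mkQ x := by
        rw [← map_add]; rfl
      show F w + O.mkQ x + O.mkQ (fun t => g' (ix (S.σ i w)) j t (S.σ i w)) = _
      rw [e1, ← hPF w hw, add_right_comm]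

/-- The comparison of the sections over two members of the covering is locally constant. -/
theorem comp_const_par {S : Sheets d E Γ} {V : ι → Set E} {β' : ι → T → Fin S.N → Cm d → L1 d}
    {g' : ι → ι → T → E → ℂ} {ix : E → ι} {α : T → Fin S.N → Cm d → L2 d}
    (hO : ∀ f g : T → ℂ, f ∈ O → (∀ᶠ t in l, f t = g t) → g ∈ O)
    (hV : ∀ a, IsOpen (V a)) (hix : ∀ e, e ∈ V (ix e))
    (h1 : ∀ a, ∀ᶠ t in l, F1On S (V a) (β' a t) ∧ IsD1 S (V a) (β' a t) (α t))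
    (h2 : ∀ a b, ∀ᶠ t in l, SmOn S (V a ∩ V b) (g' a b t) ∧
      IsD0 S (V a ∩ V b) (g' a b t) (fun i z => β' a t i z - β' b t i z))
    (h3 : ∀ a b c, ∀ e ∈ V a ∩ V b ∩ V c,
      (fun t => g' b c t e - g' a c t e + g' a b t e) ∈ O)
    {U U' : Set E} (hU : IsOpen U) (hU' : IsOpen U') {b b' : T → Fin S.N → Cm d → L1 d}
    {g : T → E → ℂ}
    (hg : ∀ᶠ t in l, F1On S U' (b' t) ∧ SmOn S (U ∩ U') (g t) ∧
      IsD0 S (U ∩ U') (g t) (fun i z => b t i z - b' t i z)) {i i' : Fin S.N} {z z' : Cm d}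
    (hz : z ∈ ball (0 : Cm d) 3) (hz' : z' ∈ ball (0 : Cm d) 3) (hzz : S.σ i z = S.σ i' z')
    (hzU : S.σ i z ∈ U) (hzU' : S.σ i z ∈ U') {F F' : Cm d → (T → ℂ) ⧸ O}
    (hF : Lp S l O V β' g' ix i (fun t => b t i) F z)
    (hF' : Lp S l O V β' g' ix i' (fun t => b' t i') F' z') {H : E → (T → ℂ) ⧸ O}
    (hH : ∀ᶠ u in 𝓝 z, ∀ u', S.σ i u = S.σ i' u' → u' ∈ ball (0 : Cm d) 3 →
      H (S.σ i u) = O.mkQ (fun t => g t (S.σ i u)) - F u + F' u') :
    ∀ᶠ u in 𝓝 z, H (S.σ i u) = H (S.σ i z) := by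
  obtain ⟨j, hj, P, N, hN, hP, hPF⟩ := hF
  obtain ⟨k, hk, P', N', hN', hP', hPF'⟩ := hF'
  obtain ⟨θ, hθ, hθz, hθe⟩ := S.hol i i' z hz z' hz' 1 (by rw [one_smul, hzz])
  simp only [one_smul] at hθe
  rw [← hzz] at hk
  have hθc : Tendsto θ (𝓝 z) (𝓝 z') := by
    have := hθ.continuousAt.tendsto
    rwa [hθz] at this
  have t := tends S i hz
  have hzB : ∀ᶠ w in 𝓝 z, w ∈ ball (0 : Cm d) 3 := isOpen_ball.mem_nhds hz
  have hev : ∀ᶠ w in 𝓝 z, (w ∈ ball (0 : Cm d) 3 ∧ θ w ∈ ball (0 : Cm d) 3) ∧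
      (S.σ i w ∈ V j ∧ S.σ i w ∈ V k) ∧ (S.σ i w ∈ U ∧ S.σ i w ∈ U') :=
    (hzB.and (hθc.eventually (isOpen_ball.mem_nhds hz'))).and
      (((t.eventually ((hV j).mem_nhds hj)).and (t.eventually ((hV k).mem_nhds hk))).and
      ((t.eventually (hU.mem_nhds hzU)).and (t.eventually (hU'.mem_nhds hzU'))))
  have hNN : ∀ᶠ w in 𝓝 z, w ∈ N ∧ θ w ∈ N' :=
    (eventually_mem_set.2 hN).and (hθc.eventually hN')
  have hall := ((hNN.and hH).and (hev.and (eventually_eventually_nhds.2 hθe))).and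
    hθ.eventually_analyticAt
  obtain ⟨ε, hε, hB⟩ := Metric.mem_nhds_iff.1 hall
  have hD : ∀ᶠ t in l, ∀ w ∈ ball z ε,
      g t (S.σ i w) - P t w + P' t (θ w) - g' j k t (S.σ i w) =
      g t (S.σ i z) - P t z + P' t (θ z) - g' j k t (S.σ i z) := by
    filter_upwards [hP, hP', h1 k, h2 j k, hg] with t ht ht' h1t h2t hgt
    have hd : ∀ w ∈ ball z ε, HasFDerivAt
        (fun w => g t (S.σ i w) - P t w + P' t (θ w) - g' j k t (S.σ i w))
        (0 : Cm d →L[ℝ] ℂ) w := by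
      intro w hw
      obtain ⟨⟨⟨⟨hwN, hwN'⟩, hwH⟩, ⟨⟨hw3, hθw3⟩, ⟨hwj, hwk⟩, hwU, hwU'⟩, hwθ⟩, hwa⟩ := hB hw
      have hθs : ContDiffAt ℝ ∞ θ w := hwa.contDiffAt.restrict_scalars ℝ
      have hTr : Tr S S id i i' w (θ w) θ := ⟨hθs, rfl, hwθ⟩
      have hθd : HasFDerivAt θ (fderiv ℝ θ w) w := (hθs.differentiableAt (by simp)).hasFDerivAt
      have e1 := ((hgt.2.1 i w hw3 ⟨hwU, hwU'⟩).differentiableAt (by simp)).hasFDerivAt
      rw [hgt.2.2 i w hw3 ⟨hwU, hwU'⟩] at e1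
      have e2 := ((h2t.1 i w hw3 ⟨hwj, hwk⟩).differentiableAt (by simp)).hasFDerivAt
      rw [h2t.2 i w hw3 ⟨hwj, hwk⟩] at e2
      have e3 : HasFDerivAt (fun w => P' t (θ w))
          ((b' t i' (θ w) - β' k t i' (θ w)).comp (fderiv ℝ θ w)) w :=
        (ht' (θ w) hwN').comp w hθd
      refine (((e1.sub (ht w hwN)).add e3).sub e2).congr_fderiv ?_
      ext v
      have c1 := hgt.1.change i i' w hw3 (θ w) hθw3 hwU' θ hTr v
      have c2 := h1t.1.change i i' w hw3 (θ w) hθw3 hwk θ hTr v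
      show (b t i w v - b' t i w v) - (b t i w v - β' j t i w v) + (b' t i' (θ w) (fderiv ℝ θ w v) -
        β' k t i' (θ w) (fderiv ℝ θ w v)) - (β' j t i w v - β' k t i w v) = 0
      rw [← c1, ← c2]; ring
    intro w hw
    exact isOpen_ball.is_const_of_fderiv_eq_zero (convex_ball z ε).isPreconnected
      (fun u hu => (hd u hu).differentiableAt.differentiableWithinAt)
      (fun u hu => (hd u hu).fderiv) hw (mem_ball_self hε)
  have hval : ∀ w ∈ ball z ε,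
      H (S.σ i w) = O.mkQ (fun t => g t (S.σ i w) - P t w + P' t (θ w) - g' j k t (S.σ i w)) := by
    intro w hw
    obtain ⟨⟨⟨⟨hwN, hwN'⟩, hwH⟩, ⟨⟨hw3, hθw3⟩, ⟨hwj, hwk⟩, hwU, hwU'⟩, hwθ⟩, hwa⟩ := hB hw
    have hσ := hwθ.self_of_nhds
    rw [hwH (θ w) hσ hθw3]
    have e1 : F w = O.mkQ (fun t => P t w) - O.mkQ (fun t => g' (ix (S.σ i w)) j t (S.σ i w)) := by
      rw [← hPF w hwN]; abel
    have e2 : F' (θ w) =
        O.mkQ (fun t => P' t (θ w)) - O.mkQ (fun t => g' (ix (S.σ i w)) k t (S.σ i w)) := by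
      rw [← hPF' (θ w) hwN', ← hσ]; abel
    have e3 : O.mkQ (fun t => g' j k t (S.σ i w)) - O.mkQ (fun t => g' (ix (S.σ i w)) k t (S.σ i w))
        + O.mkQ (fun t => g' (ix (S.σ i w)) j t (S.σ i w)) = 0 := by
      rw [← map_sub, ← map_add]
      exact q_zero' (h3 _ _ _ _ ⟨⟨hix _, hwj⟩, hwk⟩)
    have e4 : O.mkQ (fun t => g t (S.σ i w) - P t w + P' t (θ w) - g' j k t (S.σ i w)) =
        O.mkQ (fun t => g t (S.σ i w)) - O.mkQ (fun t => P t w) + O.mkQ (fun t => P' t (θ w)) -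
          O.mkQ (fun t => g' j k t (S.σ i w)) := by
      rw [← map_sub, ← map_add, ← map_sub]; rfl
    rw [e4, e1, e2, ← sub_eq_zero, ← e3]
    abel
  filter_upwards [ball_mem_nhds z hε] with w hw
  rw [hval w hw, hval z (mem_ball_self hε)]
  refine q_eq_of_ev hO ?_
  filter_upwards [hD] with t ht
  exact ht w hw

end

section
variable {T : Type} {l : Filter T} {O : Submodule ℂ (T → ℂ)}
variable {d : ℕ} {E Γ : Type} [TopologicalSpace E] [Group Γ] [MulAction Γ E] {ι : Type}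

/-- **The Čech classes modulo `O`.** -/
theorem cob_mod {S : Sheets d E Γ} {A : Type} (G : Good S A)
    (hO : ∀ f g : T → ℂ, f ∈ O → (∀ᶠ t in l, f t = g t) → g ∈ O)
    {α : T → Fin S.N → Cm d → L2 d} {β : T → A → Fin S.N → Cm d → L1 d}
    {g : T → A → A → E → ℂ} {c : T → A → A → A → ℂ}
    (hco : ∀ᶠ t in l, IsCo S G.U (α t) (β t) (g t) (c t))
    {V : ι → Set E} {β' : ι → T → Fin S.N → Cm d → L1 d} {g' : ι → ι → T → E → ℂ}
    (hV : ∀ a, IsOpen (V a)) (hcov : ∀ e, ∃ i, e ∈ V i)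
    (h1 : ∀ a, ∀ᶠ t in l, F1On S (V a) (β' a t) ∧ IsD1 S (V a) (β' a t) (α t))
    (h2 : ∀ a b, ∀ᶠ t in l, SmOn S (V a ∩ V b) (g' a b t) ∧
      IsD0 S (V a ∩ V b) (g' a b t) (fun i z => β' a t i z - β' b t i z))
    (h3 : ∀ a b c, ∀ e ∈ V a ∩ V b ∩ V c,
      (fun t => g' b c t e - g' a c t e + g' a b t e) ∈ O) :
    ∃ h : A → A → T → ℂ, ∀ a b e, K3 G.U a b e →
      (fun t => c t a b e - (h b e t - h a e t + h a b t)) ∈ O := by
  classical
  choose ix hix using hcov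
  -- sections over the members of the covering
  have hex : ∀ a, ∃ F : Cm d → (T → ℂ) ⧸ O, ∀ z ∈ eb (G.c a) (G.r a),
      Lp S l O V β' g' ix (G.i a) (fun t => β t a (G.i a)) F z := by
    intro a
    have hU : ∀ z ∈ eb (G.c a) (G.r a), S.σ (G.i a) z ∈ G.U a := fun z hz => ⟨z, hz, rfl⟩
    have T := tors_par (S := S) (V := V) (β' := β') (g' := g') (ix := ix) (i := G.i a)
      (b := fun t => β t a (G.i a)) (α := α) (eb_open (G.c a) (G.r a)) (Good_sub3 G a) hO hV hix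
      h1 h2 h3 (by
        filter_upwards [hco] with t ht
        exact ⟨fun z hz => (ht.f1 a).smooth _ z (Good_sub3 G a hz) (hU z hz),
          fun z hz => ht.d1 a _ z (Good_sub3 G a hz) (hU z hz)⟩)
    obtain ⟨F, hF⟩ := T.main (eq2_cont (G.c a)) (eq2_convex _) (eq2_compact _) (eq2_self _)
      (fun z hz => eq2_pos hz) (R := G.r a ^ 2) (fun z hz => hz)
    exact ⟨F, fun z hz => hF z hz⟩
  choose F hF using hex
  set Φ : A → E → (T → ℂ) ⧸ O := fun a e =>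
    if h : ∃ z ∈ eb (G.c a) (G.r a), S.σ (G.i a) z = e then F a h.choose else 0 with hΦ
  have hΦe : ∀ a, ∀ z ∈ eb (G.c a) (G.r a), Φ a (S.σ (G.i a) z) = F a z := by
    intro a z hz
    have hh : ∃ z' ∈ eb (G.c a) (G.r a), S.σ (G.i a) z' = S.σ (G.i a) z := ⟨z, hz, rfl⟩
    simp only [hΦ, dif_pos hh]
    rw [inj' S _ (Good_sub3 G a hh.choose_spec.1) (Good_sub3 G a hz) hh.choose_spec.2]
  -- the constants
  have hconst : ∀ a b, ∃ x : T → ℂ, ∀ e ∈ G.U a ∩ G.U b,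
      O.mkQ (fun t => g t a b e) - Φ a e + Φ b e = O.mkQ x := by
    intro a b
    set W : Set (Cm d) := {z | z ∈ eb (G.c a) (G.r a) ∧ S.σ (G.i a) z ∈ G.U b} with hW
    have hWc : Convex ℝ W := G.conv a b
    by_cases hne : W.Nonempty
    · obtain ⟨z0, hz0⟩ := hne
      set H : E → (T → ℂ) ⧸ O := fun e => O.mkQ (fun t => g t a b e) - Φ a e + Φ b e with hH
      obtain ⟨x, hx⟩ := O.mkQ_surjective (H (S.σ (G.i a) z0))
      refine ⟨x, ?_⟩
      rintro e ⟨⟨z, hz, rfl⟩, hzb⟩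
      rw [hx]
      refine eq_of_locConst hWc.isPreconnected (fun z => H (S.σ (G.i a) z)) ?_ ⟨hz, hzb⟩ hz0
      rintro y ⟨hy, y', hy', hyy⟩
      have hy3 := Good_sub3 G a hy
      have hy3' := Good_sub3 G b hy'
      refine comp_const_par (α := α) (b := fun t => β t a) (b' := fun t => β t b)
        (g := fun t => g t a b) hO hV hix h1 h2 h3 (U_open G a) (U_open G b) (by
          filter_upwards [hco] with t ht
          exact ⟨ht.f1 b, ht.sm a b, ht.d0 a b⟩)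
        hy3 hy3' hyy.symm ⟨y, hy, rfl⟩ ⟨y', hy', hyy⟩ (hF a y hy) (hF b y' hy') ?_
      have hUb : ∀ᶠ u in 𝓝 y, S.σ (G.i a) u ∈ G.U b :=
        (tends S _ hy3).eventually ((U_open G b).mem_nhds ⟨y', hy', hyy⟩)
      filter_upwards [(eb_open _ _).mem_nhds hy, hUb] with u hu huU u' huu hu'3
      obtain ⟨u'', hu'', hu2⟩ := huU
      have : u'' = u' := inj' S _ (Good_sub3 G b hu'') hu'3 (hu2.trans huu)
      subst this
      show O.mkQ (fun t => g t a b (S.σ (G.i a) u)) - Φ a (S.σ (G.i a) u) +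
        Φ b (S.σ (G.i a) u) = _
      rw [hΦe a u hu]
      conv_lhs => rw [show Φ b (S.σ (G.i a) u) = F b u'' by rw [huu, hΦe b u'' hu'']]
    · refine ⟨0, ?_⟩
      rintro e ⟨⟨z, hz, rfl⟩, hzb⟩
      exact absurd ⟨z, hz, hzb⟩ hne
  choose h hh using hconst
  refine ⟨h, ?_⟩
  rintro a b e ⟨p, ⟨hpa, hpb⟩, hpe⟩
  have e1 : O.mkQ (fun t => c t a b e - (h b e t - h a e t + h a b t)) = 0 := by
    have e2 : O.mkQ (fun t => c t a b e - (h b e t - h a e t + h a b t)) =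
        O.mkQ (fun t => g t b e p) - O.mkQ (fun t => g t a e p) + O.mkQ (fun t => g t a b p) -
          (O.mkQ (h b e) - O.mkQ (h a e) + O.mkQ (h a b)) := by
      rw [← map_sub, ← map_add, ← map_sub, ← map_add, ← map_sub]
      refine q_eq_of_ev hO ?_
      filter_upwards [hco] with t ht
      have := ht.co a b e p ⟨⟨hpa, hpb⟩, hpe⟩
      show c t a b e - (h b e t - h a e t + h a b t) =
        g t b e p - g t a e p + g t a b p - (h b e t - h a e t + h a b t)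
      rw [this]
    rw [e2, ← hh b e p ⟨hpb, hpe⟩, ← hh a e p ⟨hpa, hpe⟩, ← hh a b p ⟨hpa, hpb⟩]
    abel
  rwa [Submodule.mkQ_apply, Submodule.Quotient.mk_eq_zero] at e1

end

end Vale.Agent.P281.H751.TS
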