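import Vale.Agent.P281.H751.TS.B1
import Vale.Agent.P281.H834.TS.Tube

/-!
# P281, project T-S (helper64), block B2 (helper751): closed 2-forms on the total space, any `d`

If `K` is a closed real 2-form on the total space, the class of its restriction to the fibres is
locally constant.
-/

open Set Filter Metric MeasureTheory Vale.Agent.P272.K Vale.Agent.P281.H64.TK
  Vale.Agent.P281.H64.TK.TS
open Vale.Agent.P281.H834.TS (iv tr iv_σ iv_smooth iv_eventually iv_tendsto σ_tendsto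
  tr_analyticAt tr_eq tr_eventually sh tc ta Ev exists_tube convex_tc)
open scoped Topology ContDiff ComplexConjugate

noncomputable section

namespace Vale.Agent.P281.H751.TS

section Gen
variable {X Y F : Type} [NormedAddCommGroup X] [NormedSpace ℝ X] [NormedAddCommGroup Y]
  [NormedSpace ℝ Y] [NormedAddCommGroup F] [NormedSpace ℝ F]

theorem gsm1 {ψ : X → Y} {z : X} {b : Y → Y →L[ℝ] F} (h : ContDiffAt ℝ ∞ ψ z)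
    (hb : ContDiffAt ℝ ∞ b (ψ z)) :
    ContDiffAt ℝ ∞ (fun u => (b (ψ u)).comp (fderiv ℝ ψ u)) z :=
  (ContDiffAt.comp z hb h).clm_comp (h.fderiv_right (by simp))

theorem gfd1 {ψ : X → Y} {z : X} {b : Y → Y →L[ℝ] F} (h : ContDiffAt ℝ ∞ ψ z)
    (hb : ContDiffAt ℝ ∞ b (ψ z)) (u v : X) :
    fderiv ℝ (fun u => (b (ψ u)).comp (fderiv ℝ ψ u)) z u v -
      fderiv ℝ (fun u => (b (ψ u)).comp (fderiv ℝ ψ u)) z v u =
      fderiv ℝ b (ψ z) (fderiv ℝ ψ z u) (fderiv ℝ ψ z v) -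
        fderiv ℝ b (ψ z) (fderiv ℝ ψ z v) (fderiv ℝ ψ z u) := by
  have h0 : HasFDerivAt ψ (fderiv ℝ ψ z) z := (h.differentiableAt (by simp)).hasFDerivAt
  have h1 : HasFDerivAt b (fderiv ℝ b (ψ z)) (ψ z) := (hb.differentiableAt (by simp)).hasFDerivAt
  have h2 : HasFDerivAt (fun u => b (ψ u)) ((fderiv ℝ b (ψ z)).comp (fderiv ℝ ψ z)) z :=
    h1.comp z h0
  have h3 : HasFDerivAt (fderiv ℝ ψ) (fderiv ℝ (fderiv ℝ ψ) z) z :=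
    ((h.fderiv_right (m := ∞) (by simp)).differentiableAt (by simp)).hasFDerivAt
  have h4 : fderiv ℝ (fderiv ℝ ψ) z u v = fderiv ℝ (fderiv ℝ ψ) z v u := by
    have := h.isSymmSndFDerivAt (by
      rw [minSmoothness_of_isRCLikeNormedField]
      exact WithTop.coe_le_coe.2 (le_top : (2 : ℕ∞) ≤ ⊤))
    exact this u v
  rw [(h2.clm_comp h3).fderiv]
  simp [h4]

end Gen

section
variable {p d : ℕ} {E Γ : Type} [TopologicalSpace E] [Group Γ] [MulAction Γ E]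
  (𝓕 : Fam p d E Γ)

/-- The 1-form `c t` of the sheet `j` at time `t`, in the sheets at time `t₀`. -/
def bc (c : Cm p → Cm d → L1 d) (t₀ : Cm p) (j : Fin 𝓕.N) (t : Cm p) (k : Fin 𝓕.N) (z : Cm d) :
    L1 d :=
  (c t (iv 𝓕 j t (𝓕.σ k t₀ z))).comp (fderiv ℝ (fun u => iv 𝓕 j t (𝓕.σ k t₀ u)) z)

theorem tr_times' {i j : Fin 𝓕.N} {t s : Cm p} (ht : t ∈ 𝓕.T) (hs : s ∈ 𝓕.T) {z w : Cm d}
    (hz : z ∈ ball (0 : Cm d) 3) (hw : w ∈ ball (0 : Cm d) 3) (h : 𝓕.σ i t z = 𝓕.σ j s w) :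
    Tr (𝓕.at t ht) (𝓕.at s hs) id i j z w (fun u => iv 𝓕 j s (𝓕.σ i t u)) := by
  obtain ⟨h1, h2⟩ := iv_smooth 𝓕 ht hs hz hw h
  refine ⟨h1, ?_, h2⟩
  show iv 𝓕 j s (𝓕.σ i t z) = w
  rw [h, iv_σ 𝓕 hs hw]

theorem fd_iv' {i j k : Fin 𝓕.N} {r s t : Cm p} (hs : s ∈ 𝓕.T) (ht : t ∈ 𝓕.T) {x y z : Cm d}
    (hy : y ∈ ball (0 : Cm d) 3) (hz : z ∈ ball (0 : Cm d) 3)
    (h' : 𝓕.σ j s y = 𝓕.σ k t z) {χ : Cm d → Cm d} (hχ : DifferentiableAt ℝ χ x) (hχy : χ x = y)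
    (he : ∀ᶠ u in 𝓝 x, 𝓕.σ i r u = 𝓕.σ j s (χ u)) :
    fderiv ℝ (fun u => iv 𝓕 k t (𝓕.σ i r u)) x =
      (fderiv ℝ (fun u => iv 𝓕 k t (𝓕.σ j s u)) y).comp (fderiv ℝ χ x) := by
  have e : (fun u => iv 𝓕 k t (𝓕.σ i r u)) =ᶠ[𝓝 x] (fun u => iv 𝓕 k t (𝓕.σ j s u)) ∘ χ := by
    filter_upwards [he] with u hu
    simp only [Function.comp, hu]
  rw [e.fderiv_eq]
  have h1 := ((iv_smooth 𝓕 hs ht hy hz h').1).differentiableAt (by simp)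
  rw [← hχy] at h1 ⊢
  exact fderiv_comp x h1 hχ

theorem bc_form {t₀ t : Cm p} (ht₀ : t₀ ∈ 𝓕.T) (ht : t ∈ 𝓕.T) {U : Set E} {j : Fin 𝓕.N}
    (hU : ∀ e ∈ U, ∃ w ∈ ball (0 : Cm d) 3, 𝓕.σ j t w = e) {c : Cm p → Cm d → L1 d}
    (hc : ∀ z ∈ ball (0 : Cm d) 3, ContDiffAt ℝ ∞ (c t) z) {m : Cm d → Cm d → Cm d → ℂ}
    (hm : ∀ z ∈ ball (0 : Cm d) 3, ∀ u v, fderiv ℝ (c t) z u v - fderiv ℝ (c t) z v u = m z u v)
    {α : Fin 𝓕.N → Cm d → L2 d}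
    (hα : ∀ k, ∀ z ∈ ball (0 : Cm d) 3, ∀ w ∈ ball (0 : Cm d) 3, ∀ ψ,
      Tr (𝓕.at t₀ ht₀) (𝓕.at t ht) id k j z w ψ →
      ∀ u v, α k z u v = m w (fderiv ℝ ψ z u) (fderiv ℝ ψ z v)) :
    F1On (𝓕.at t₀ ht₀) U (bc 𝓕 c t₀ j t) ∧ IsD1 (𝓕.at t₀ ht₀) U (bc 𝓕 c t₀ j t) α := by
  have key : ∀ (k : Fin 𝓕.N) (z : Cm d), z ∈ ball (0 : Cm d) 3 → 𝓕.σ k t₀ z ∈ U →
      ∃ w ∈ ball (0 : Cm d) 3, 𝓕.σ k t₀ z = 𝓕.σ j t w ∧ iv 𝓕 j t (𝓕.σ k t₀ z) = w ∧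
        ContDiffAt ℝ ∞ (fun u => iv 𝓕 j t (𝓕.σ k t₀ u)) z := by
    intro k z hz hzU
    obtain ⟨w, hw, hwz⟩ := hU _ hzU
    refine ⟨w, hw, hwz.symm, ?_, (iv_smooth 𝓕 ht₀ ht hz hw hwz.symm).1⟩
    rw [← hwz, iv_σ 𝓕 ht hw]
  refine ⟨⟨?_, ?_⟩, ?_⟩
  · intro k z hz hzU
    obtain ⟨w, hw, h1, h2, h3⟩ := key k z hz hzU
    exact gsm1 h3 (by rw [h2]; exact hc w hw)
  · intro k k' z hz z' hz' hzU χ hχ v
    obtain ⟨w, hw, h1, h2, h3⟩ := key k z hz hzU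
    have h0 : 𝓕.σ k t₀ z = 𝓕.σ k' t₀ z' := by
      have := hχ.2.2.self_of_nhds
      rw [hχ.2.1] at this
      exact this
    show (c t (iv 𝓕 j t (𝓕.σ k t₀ z))) (fderiv ℝ (fun u => iv 𝓕 j t (𝓕.σ k t₀ u)) z v) =
      (c t (iv 𝓕 j t (𝓕.σ k' t₀ z')))
        (fderiv ℝ (fun u => iv 𝓕 j t (𝓕.σ k' t₀ u)) z' (fderiv ℝ χ z v))
    rw [fd_iv' 𝓕 (j := k') (s := t₀) ht₀ ht hz' hw (h0 ▸ h1) (hχ.1.differentiableAt (by simp))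
      hχ.2.1 hχ.2.2, h0]
    rfl
  · intro k z hz hzU u v
    obtain ⟨w, hw, h1, h2, h3⟩ := key k z hz hzU
    have hcc : ContDiffAt ℝ ∞ (c t) (iv 𝓕 j t (𝓕.σ k t₀ z)) := by
      rw [h2]; exact hc w hw
    have e1 := gfd1 h3 hcc u v
    have e4 := hm w hw (fderiv ℝ (fun u => iv 𝓕 j t (𝓕.σ k t₀ u)) z u)
      (fderiv ℝ (fun u => iv 𝓕 j t (𝓕.σ k t₀ u)) z v)
    have e5 := hα k z hz w hw _ (tr_times' 𝓕 ht₀ ht hz hw h1) u v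
    rw [e5, ← e4]
    rw [h2] at e1
    exact e1

/-- The transition map of the total space. -/
def hat (i j : Fin 𝓕.N) (q : Cm p × Cm d) : Cm p × Cm d := (q.1, tr 𝓕 i j q)

theorem hat_smooth {i j : Fin 𝓕.N} {t : Cm p} (ht : t ∈ 𝓕.T) {z w : Cm d}
    (hz : z ∈ ball (0 : Cm d) 3) (hw : w ∈ ball (0 : Cm d) 3) (h : 𝓕.σ i t z = 𝓕.σ j t w) :
    ContDiffAt ℝ ∞ (hat 𝓕 i j) (t, z) := by
  have h1 := ((tr_analyticAt 𝓕 ht hz hw h).contDiffAt (n := ∞)).restrict_scalars ℝ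
  exact contDiffAt_fst.prodMk h1

theorem hat_comp {i j k : Fin 𝓕.N} {t : Cm p} (ht : t ∈ 𝓕.T) {z w w' : Cm d}
    (hz : z ∈ ball (0 : Cm d) 3) (hw : w ∈ ball (0 : Cm d) 3) (h : 𝓕.σ i t z = 𝓕.σ j t w)
    (hw' : w' ∈ ball (0 : Cm d) 3) (h' : 𝓕.σ i t z = 𝓕.σ k t w') :
    hat 𝓕 i k =ᶠ[𝓝 (t, z)] hat 𝓕 j k ∘ hat 𝓕 i j ∧
      fderiv ℝ (hat 𝓕 i k) (t, z) =
        (fderiv ℝ (hat 𝓕 j k) (t, w)).comp (fderiv ℝ (hat 𝓕 i j) (t, z)) := by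
  have e : hat 𝓕 i k =ᶠ[𝓝 (t, z)] hat 𝓕 j k ∘ hat 𝓕 i j := by
    filter_upwards [tr_eventually 𝓕 ht hz hw h (isOpen_ball.mem_nhds hw)] with q hq
    simp only [hat, Function.comp, tr]
    have := hq.2.2.2
    simp only [tr] at this
    rw [this]
  refine ⟨e, ?_⟩
  rw [e.fderiv_eq]
  have h1 : hat 𝓕 i j (t, z) = (t, w) := by
    simp only [hat]
    rw [tr_eq 𝓕 ht hw h]
  have h2 : DifferentiableAt ℝ (hat 𝓕 j k) (hat 𝓕 i j (t, z)) := by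
    rw [h1]
    exact (hat_smooth 𝓕 ht hw hw' (h.symm.trans h')).differentiableAt (by simp)
  rw [fderiv_comp _ h2 ((hat_smooth 𝓕 ht hz hw h).differentiableAt (by simp)), h1]

/-- A closed real 2-form on the total space. -/
structure TK2 (K : Fin 𝓕.N → Cm p × Cm d → (Cm p × Cm d) →L[ℝ] (Cm p × Cm d) →L[ℝ] ℂ) :
    Prop where
  smooth : ∀ i, ∀ t ∈ 𝓕.T, ∀ z ∈ ball (0 : Cm d) 3, ContDiffAt ℝ ∞ (K i) (t, z)
  alt : ∀ i, ∀ t ∈ 𝓕.T, ∀ z ∈ ball (0 : Cm d) 3, ∀ u v, K i (t, z) u v = - K i (t, z) v u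
  closed : ∀ i, ∀ t ∈ 𝓕.T, ∀ z ∈ ball (0 : Cm d) 3, ∀ u v w,
    fderiv ℝ (K i) (t, z) u v w + fderiv ℝ (K i) (t, z) v w u + fderiv ℝ (K i) (t, z) w u v = 0
  change : ∀ i j, ∀ t ∈ 𝓕.T, ∀ z ∈ ball (0 : Cm d) 3, ∀ w ∈ ball (0 : Cm d) 3,
    𝓕.σ i t z = 𝓕.σ j t w → ∀ u v, K i (t, z) u v =
      K j (t, w) (fderiv ℝ (hat 𝓕 i j) (t, z) u) (fderiv ℝ (hat 𝓕 i j) (t, z) v)

end

/-- The functions which are constant near `t₀`. -/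
def Lc0 {X : Type*} [TopologicalSpace X] (t₀ : X) : Submodule ℂ (X → ℂ) where
  carrier := {f | ∀ᶠ t in 𝓝 t₀, f t = f t₀}
  zero_mem' := Eventually.of_forall fun _ => rfl
  add_mem' := by
    intro f g hf hg
    filter_upwards [hf, hg] with t h1 h2
    simp only [Pi.add_apply, h1, h2]
  smul_mem' := by
    intro c f hf
    filter_upwards [hf] with t h1
    simp only [Pi.smul_apply, h1]

section
variable {p d : ℕ} {E Γ : Type} [TopologicalSpace E] [T2Space E] [Group Γ] [Subsingleton Γ]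
  [MulAction Γ E] [ContinuousConstSMul Γ E] (𝓕 : Fam p d E Γ)

/-- **The class of a closed 2-form of the total space is locally constant.** -/
theorem tk_const (hd : 0 < d)
    {K : Fin 𝓕.N → Cm p × Cm d → (Cm p × Cm d) →L[ℝ] (Cm p × Cm d) →L[ℝ] ℂ} (hK : TK2 𝓕 K)
    {t₀ : Cm p} (ht₀ : t₀ ∈ 𝓕.T) {n : ℕ} (M : Mark2 (𝓕.at t₀ ht₀) n)
    (α : Cm p → Fin (𝓕.at t₀ ht₀).N → Cm d → L2 d)
    (hα : ∀ t (_ : t ∈ 𝓕.T), Cl2 (𝓕.at t₀ ht₀) (α t))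
    (hα' : ∀ t (ht : t ∈ 𝓕.T), ∀ k j, ∀ z ∈ ball (0 : Cm d) 3, ∀ w ∈ ball (0 : Cm d) 3, ∀ ψ,
      Tr (𝓕.at t₀ ht₀) (𝓕.at t ht) id k j z w ψ →
      ∀ u v, α t k z u v = K j (t, w) (0, fderiv ℝ ψ z u) (0, fderiv ℝ ψ z v)) (k : Fin n) :
    ∀ᶠ t in 𝓝 t₀, M.cl (α t) k = M.cl (α t₀) k := by
  classical
  obtain ⟨A, iA, G, -⟩ := good d E Γ (𝓕.at t₀ ht₀) hd 1 one_pos
  obtain ⟨δ, hδ, δ', hδ', ε, hε, hδδ, hεT, tube1, tube2, tube3⟩ := exists_tube 𝓕 ht₀ G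
  have hTn : ∀ᶠ t in 𝓝 t₀, t ∈ ball t₀ ε := ball_mem_nhds t₀ hε
  have ht₀ε : t₀ ∈ ball t₀ ε := mem_ball_self hε
  -- the primitives in the sheets
  have hΩo : IsOpen (ball t₀ ε ×ˢ ball (0 : Cm d) 3) := isOpen_ball.prod isOpen_ball
  have hΩc : Convex ℝ (ball t₀ ε ×ˢ ball (0 : Cm d) 3) := (convex_ball _ _).prod (convex_ball _ _)
  have hB : ∀ j, ∃ B : Cm p × Cm d → (Cm p × Cm d) →L[ℝ] ℂ,
      (∀ q ∈ ball t₀ ε ×ˢ ball (0 : Cm d) 3, ContDiffAt ℝ ∞ B q) ∧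
      ∀ q ∈ ball t₀ ε ×ˢ ball (0 : Cm d) 3, ∀ u v,
        fderiv ℝ B q u v - fderiv ℝ B q v u = K j q u v := by
    intro j
    have hx : (t₀, (0 : Cm d)) ∈ ball t₀ ε ×ˢ ball (0 : Cm d) 3 :=
      ⟨ht₀ε, mem_ball_self (by norm_num)⟩
    have hs : ContDiffOn ℝ ∞ (K j) (ball t₀ ε ×ˢ ball (0 : Cm d) 3) := fun q hq =>
      (hK.smooth j q.1 (hεT hq.1) q.2 hq.2).contDiffWithinAt
    refine ⟨H352.TS.hom (t₀, 0) (K j), fun q hq =>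
      (H352.TS.contDiffOn_hom _ _ hΩo hΩc hx hs).contDiffAt (hΩo.mem_nhds hq), fun q hq u v => ?_⟩
    exact H352.TS.poincare_two _ _ hΩo hΩc hx hs
      (fun q hq => hK.alt j q.1 (hεT hq.1) q.2 hq.2)
      (fun q hq => hK.closed j q.1 (hεT hq.1) q.2 hq.2) hq u v
  choose B hBs hBd using hB
  set c : Fin 𝓕.N → Cm p → Cm d → L1 d := fun j t z =>
    (B j (t, z)).comp (ContinuousLinearMap.inr ℝ (Cm p) (Cm d)) with hcdef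
  have hcs : ∀ j, ∀ t ∈ ball t₀ ε, ∀ z ∈ ball (0 : Cm d) 3, ContDiffAt ℝ ∞ (c j t) z := by
    intro j t ht z hz
    have h1 : ContDiffAt ℝ ∞ (fun z : Cm d => (t, z)) z := contDiffAt_const.prodMk contDiffAt_id
    exact (ContDiffAt.comp z (hBs j (t, z) ⟨ht, hz⟩) h1).clm_comp contDiffAt_const
  have hcd : ∀ j, ∀ t ∈ ball t₀ ε, ∀ z ∈ ball (0 : Cm d) 3, ∀ u v,
      fderiv ℝ (c j t) z u v - fderiv ℝ (c j t) z v u = K j (t, z) (0, u) (0, v) := by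
    intro j t ht z hz u v
    rw [← hBd j (t, z) ⟨ht, hz⟩]
    have h1 : HasFDerivAt (fun z : Cm d => B j (t, z))
        ((fderiv ℝ (B j) (t, z)).comp (ContinuousLinearMap.inr ℝ (Cm p) (Cm d))) z :=
      (((hBs j (t, z) ⟨ht, hz⟩).differentiableAt (by simp)).hasFDerivAt).comp z
        (hasFDerivAt_prodMk_right t z)
    have h2 := (h1.clm_comp (hasFDerivAt_const
      (ContinuousLinearMap.inr ℝ (Cm p) (Cm d)) z)).fderiv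
    have h3 : ∀ x y : Cm d, fderiv ℝ (c j t) z x y = fderiv ℝ (B j) (t, z) (0, x) (0, y) := by
      intro x y
      show fderiv ℝ (fun z => (B j (t, z)).comp (ContinuousLinearMap.inr ℝ (Cm p) (Cm d))) z x y = _
      rw [h2]
      simp
    rw [h3, h3]
  -- the members of the covering
  have h23 : ∀ a, eb (G.c a) (2 * G.r a) ⊆ ball (0 : Cm d) 3 := fun a =>
    (G.sub a).trans (ball_subset_ball (by norm_num))
  set s : A → Fin 𝓕.N := fun a => sh 𝓕 ht₀ G a with hs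
  have hcov : ∀ a, ∀ t ∈ ball t₀ ε, ∀ e ∈ G.U a, ∃ w ∈ ball (0 : Cm d) 3, 𝓕.σ (s a) t w = e := by
    rintro a t ht e ⟨z, hz, rfl⟩
    obtain ⟨-, h2, h3⟩ := tube3 a t ht z hz
    exact ⟨_, h23 a h2, h3⟩
  set β : A → Cm p → Fin (𝓕.at t₀ ht₀).N → Cm d → L1 d :=
    fun a t => bc 𝓕 (c (s a)) t₀ (s a) t with hβ
  have h1 : ∀ a, ∀ᶠ t in 𝓝 t₀, F1On (𝓕.at t₀ ht₀) (G.U a) (β a t) ∧
      IsD1 (𝓕.at t₀ ht₀) (G.U a) (β a t) (α t) := by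
    intro a
    filter_upwards [hTn] with t ht
    exact bc_form 𝓕 ht₀ (hεT ht) (hcov a t ht) (hcs (s a) t ht)
      (m := fun z u v => K (s a) (t, z) (0, u) (0, v)) (hcd (s a) t ht)
      (fun k z hz w hw ψ hψ u v => hα' t (hεT ht) k (s a) z hz w hw ψ hψ u v)
  -- the total forms on the tubes
  have hEv : ∀ a b, ∀ t ∈ ball t₀ ε, ∀ z ∈ thickening δ (tc 𝓕 ht₀ G a b),
      z ∈ ball (0 : Cm d) 3 ∧ tr 𝓕 (s a) (s b) (t, z) ∈ ball (0 : Cm d) 3 ∧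
        𝓕.σ (s a) t z = 𝓕.σ (s b) t (tr 𝓕 (s a) (s b) (t, z)) := by
    intro a b t ht z hz
    obtain ⟨-, k1, k2, k3⟩ := tube1 a b t ht z hz
    exact ⟨h23 a k1, h23 b k2, k3.symm⟩
  set γ : A → A → Cm p × Cm d → (Cm p × Cm d) →L[ℝ] ℂ := fun a b q =>
    B (s a) q - (B (s b) (hat 𝓕 (s a) (s b) q)).comp (fderiv ℝ (hat 𝓕 (s a) (s b)) q) with hγ
  have hΩs : ∀ a b, IsOpen (ball t₀ ε ×ˢ thickening δ (tc 𝓕 ht₀ G a b)) := fun a b =>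
    isOpen_ball.prod isOpen_thickening
  have hGex : ∀ a b, ∃ g : Cm p × Cm d → ℂ,
      (∀ q ∈ ball t₀ ε ×ˢ thickening δ (tc 𝓕 ht₀ G a b), ContDiffAt ℝ ∞ g q) ∧
      ∀ q ∈ ball t₀ ε ×ˢ thickening δ (tc 𝓕 ht₀ G a b), HasFDerivAt g (γ a b q) q := by
    intro a b
    have hsm : ∀ q ∈ ball t₀ ε ×ˢ thickening δ (tc 𝓕 ht₀ G a b),
        ContDiffAt ℝ ∞ (B (s a)) q ∧ ContDiffAt ℝ ∞ (fun q => (B (s b) (hat 𝓕 (s a) (s b) q)).comp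
          (fderiv ℝ (hat 𝓕 (s a) (s b)) q)) q := by
      rintro ⟨t, z⟩ ⟨ht, hz⟩
      obtain ⟨k1, k2, k3⟩ := hEv a b t ht z hz
      exact ⟨hBs (s a) (t, z) ⟨ht, k1⟩, gsm1 (hat_smooth 𝓕 (hεT ht) k1 k2 k3)
        (hBs (s b) _ ⟨ht, k2⟩)⟩
    obtain ⟨g, hg1, hg2⟩ := H352.TS.poincare_one (F := ℂ) (hΩs a b)
      ((convex_ball _ _).prod ((convex_tc 𝓕 ht₀ G a b).thickening δ)) (b := γ a b)
      (fun q hq => ((hsm q hq).1.sub (hsm q hq).2).contDiffWithinAt) (by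
        rintro ⟨t, z⟩ ⟨ht, hz⟩ u v
        obtain ⟨k1, k2, k3⟩ := hEv a b t ht z hz
        have e1 : fderiv ℝ (γ a b) (t, z) = fderiv ℝ (B (s a)) (t, z) -
            fderiv ℝ (fun q => (B (s b) (hat 𝓕 (s a) (s b) q)).comp
              (fderiv ℝ (hat 𝓕 (s a) (s b)) q)) (t, z) :=
          fderiv_fun_sub ((hsm (t, z) ⟨ht, hz⟩).1.differentiableAt (by simp))
            ((hsm (t, z) ⟨ht, hz⟩).2.differentiableAt (by simp))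
        have e2 := hBd (s a) (t, z) ⟨ht, k1⟩ u v
        have e3 := gfd1 (hat_smooth 𝓕 (hεT ht) k1 k2 k3)
          (hBs (s b) (hat 𝓕 (s a) (s b) (t, z)) ⟨ht, k2⟩) u v
        have e4 := hBd (s b) (hat 𝓕 (s a) (s b) (t, z)) ⟨ht, k2⟩
          (fderiv ℝ (hat 𝓕 (s a) (s b)) (t, z) u) (fderiv ℝ (hat 𝓕 (s a) (s b)) (t, z) v)
        have e5 := hK.change (s a) (s b) t (hεT ht) z k1 _ k2 k3 u v
        rw [e1]
        simp only [sub_apply]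
        rw [e4] at e3
        have e6 : K (s b) (hat 𝓕 (s a) (s b) (t, z)) = K (s b) (t, tr 𝓕 (s a) (s b) (t, z)) := rfl
        rw [e6, ← e5] at e3
        linear_combination e2 - e3)
    exact ⟨g, fun q hq => hg1.contDiffAt ((hΩs a b).mem_nhds hq), fun q hq => by
      rw [← hg2 q hq]
      exact ((hg1.contDiffAt ((hΩs a b).mem_nhds hq)).differentiableAt (by simp)).hasFDerivAt⟩
  choose Gf hGs hGd using hGex
  set g' : A → A → Cm p → E → ℂ := fun a b t e => Gf a b (t, iv 𝓕 (s a) t e) with hg'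
  have h2 : ∀ a b, ∀ᶠ t in 𝓝 t₀, SmOn (𝓕.at t₀ ht₀) (G.U a ∩ G.U b) (g' a b t) ∧
      IsD0 (𝓕.at t₀ ht₀) (G.U a ∩ G.U b) (g' a b t) (fun k z => β a t k z - β b t k z) := by
    intro a b
    filter_upwards [hTn] with t ht
    have key : ∀ (k : Fin 𝓕.N) (z : Cm d), z ∈ ball (0 : Cm d) 3 →
        𝓕.σ k t₀ z ∈ G.U a ∩ G.U b →
        (t, iv 𝓕 (s a) t (𝓕.σ k t₀ z)) ∈ ball t₀ ε ×ˢ thickening δ (tc 𝓕 ht₀ G a b) ∧
        𝓕.σ k t₀ z = 𝓕.σ (s a) t (iv 𝓕 (s a) t (𝓕.σ k t₀ z)) := by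
      rintro k z hz ⟨⟨za, hza, hzz⟩, hb⟩
      have hzz' : 𝓕.σ (s a) t₀ za = 𝓕.σ k t₀ z := hzz
      obtain ⟨k1, k2, k3⟩ := tube3 a t ht za hza
      have k1' : iv 𝓕 (s a) t (𝓕.σ (s a) t₀ za) ∈ ball za δ' := k1
      have k3' : 𝓕.σ (s a) t (iv 𝓕 (s a) t (𝓕.σ (s a) t₀ za)) = 𝓕.σ (s a) t₀ za := k3
      rw [hzz'] at k1' k3'
      refine ⟨⟨ht, mem_thickening_iff.2 ⟨za, ⟨hza, ?_⟩, lt_of_lt_of_le k1' hδδ⟩⟩, k3'.symm⟩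
      show 𝓕.σ (s a) t₀ za ∈ G.U b
      rw [hzz']; exact hb
    refine ⟨fun k z hz hzU => ?_, fun k z hz hzU => ?_⟩
    · obtain ⟨k1, k2⟩ := key k z hz hzU
      obtain ⟨m1, m2, m3⟩ := hEv a b t ht _ k1.2
      have e1 := (iv_smooth 𝓕 ht₀ (hεT ht) hz m1 k2).1
      exact ContDiffAt.comp (g := Gf a b) z (hGs a b _ k1) (contDiffAt_const.prodMk e1)
    · obtain ⟨k1, k2⟩ := key k z hz hzU
      obtain ⟨m1, m2, m3⟩ := hEv a b t ht _ k1.2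
      obtain ⟨e1, e1'⟩ := iv_smooth 𝓕 ht₀ (hεT ht) hz m1 k2
      have e2 : HasFDerivAt (fun u => (t, iv 𝓕 (s a) t (𝓕.σ k t₀ u)))
          ((ContinuousLinearMap.inr ℝ (Cm p) (Cm d)).comp
            (fderiv ℝ (fun u => iv 𝓕 (s a) t (𝓕.σ k t₀ u)) z)) z :=
        (hasFDerivAt_prodMk_right t _).comp z (e1.differentiableAt (by simp)).hasFDerivAt
      have e3 := ((hGd a b _ k1).comp z e2).fderiv
      have e4 : fderiv ℝ (fun u => g' a b t (𝓕.σ k t₀ u)) z = (γ a b (t, iv 𝓕 (s a) t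
          (𝓕.σ k t₀ z))).comp ((ContinuousLinearMap.inr ℝ (Cm p) (Cm d)).comp
            (fderiv ℝ (fun u => iv 𝓕 (s a) t (𝓕.σ k t₀ u)) z)) := e3
      show fderiv ℝ (fun u => g' a b t (𝓕.σ k t₀ u)) z = _
      rw [e4]
      -- the coordinate in the sheet of `b`
      have e5 : 𝓕.σ k t₀ z = 𝓕.σ (s b) t (tr 𝓕 (s a) (s b) (t, iv 𝓕 (s a) t (𝓕.σ k t₀ z))) :=
        k2.trans m3
      have e6 : iv 𝓕 (s b) t (𝓕.σ k t₀ z) =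
          tr 𝓕 (s a) (s b) (t, iv 𝓕 (s a) t (𝓕.σ k t₀ z)) := by
        conv_lhs => rw [e5]
        exact iv_σ 𝓕 (hεT ht) m2
      obtain ⟨e7, -⟩ := iv_smooth 𝓕 ht₀ (hεT ht) hz m2 e5
      have e8 : HasFDerivAt (fun u => (t, iv 𝓕 (s b) t (𝓕.σ k t₀ u)))
          ((ContinuousLinearMap.inr ℝ (Cm p) (Cm d)).comp
            (fderiv ℝ (fun u => iv 𝓕 (s b) t (𝓕.σ k t₀ u)) z)) z :=
        (hasFDerivAt_prodMk_right t _).comp z (e7.differentiableAt (by simp)).hasFDerivAt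
      have e9 := ((hat_smooth 𝓕 (hεT ht) m1 m2 m3).differentiableAt (by simp)).hasFDerivAt.comp
        z e2
      have e10 : (fun u => (t, iv 𝓕 (s b) t (𝓕.σ k t₀ u))) =ᶠ[𝓝 z]
          (hat 𝓕 (s a) (s b) ∘ fun u => (t, iv 𝓕 (s a) t (𝓕.σ k t₀ u))) := by
        filter_upwards [e1'] with u hu
        simp only [Function.comp, hat, tr]
        rw [← hu]
      have e11 := (e9.congr_of_eventuallyEq e10).unique e8
      have e12 : ∀ v, fderiv ℝ (hat 𝓕 (s a) (s b)) (t, iv 𝓕 (s a) t (𝓕.σ k t₀ z))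
          (0, fderiv ℝ (fun u => iv 𝓕 (s a) t (𝓕.σ k t₀ u)) z v) =
          (0, fderiv ℝ (fun u => iv 𝓕 (s b) t (𝓕.σ k t₀ u)) z v) := fun v =>
        congrArg (fun L : Cm d →L[ℝ] (Cm p × Cm d) => L v) e11
      ext v
      show B (s a) (t, iv 𝓕 (s a) t (𝓕.σ k t₀ z))
          (0, fderiv ℝ (fun u => iv 𝓕 (s a) t (𝓕.σ k t₀ u)) z v) -
          B (s b) (t, tr 𝓕 (s a) (s b) (t, iv 𝓕 (s a) t (𝓕.σ k t₀ z)))
            (fderiv ℝ (hat 𝓕 (s a) (s b)) (t, iv 𝓕 (s a) t (𝓕.σ k t₀ z))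
          (0, fderiv ℝ (fun u => iv 𝓕 (s a) t (𝓕.σ k t₀ u)) z v)) =
          B (s a) (t, iv 𝓕 (s a) t (𝓕.σ k t₀ z))
          (0, fderiv ℝ (fun u => iv 𝓕 (s a) t (𝓕.σ k t₀ u)) z v) -
          B (s b) (t, iv 𝓕 (s b) t (𝓕.σ k t₀ z))
          (0, fderiv ℝ (fun u => iv 𝓕 (s b) t (𝓕.σ k t₀ u)) z v)
      rw [e12, e6]
  -- the cocycle is constant
  refine cl_mem (l := 𝓝 t₀) (O := Lc0 t₀) hd M (fun f f' hf he => ?_) (α := α)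
    (hTn.mono fun t ht => hα t (hεT ht)) (V := G.U) (β' := β) (g' := g')
    (U_open G) (H89.TS.exists_mem_U G) h1 h2 ?_ k
  · have h0 := he.self_of_nhds
    have hf' : ∀ᶠ t in 𝓝 t₀, f t = f t₀ := hf
    filter_upwards [hf', he] with t h3 h4
    rw [← h4, h3, h0]
  rintro a b e x ⟨⟨⟨z, hz, hzx⟩, hxb⟩, hxe⟩
  have hzx' : 𝓕.σ (s a) t₀ z = x := hzx
  have hztc : z ∈ tc 𝓕 ht₀ G a b ∩ tc 𝓕 ht₀ G a e := by
    refine ⟨⟨hz, ?_⟩, ⟨hz, ?_⟩⟩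
    · show 𝓕.σ (s a) t₀ z ∈ G.U b
      rw [hzx']; exact hxb
    · show 𝓕.σ (s a) t₀ z ∈ G.U e
      rw [hzx']; exact hxe
  set D : Cm p × Cm d → ℂ := fun q =>
    Gf b e (hat 𝓕 (s a) (s b) q) - Gf a e q + Gf a b q with hD
  have hQo : IsOpen (ball t₀ ε ×ˢ thickening δ' (tc 𝓕 ht₀ G a b ∩ tc 𝓕 ht₀ G a e)) :=
    isOpen_ball.prod isOpen_thickening
  have hQc : Convex ℝ (ball t₀ ε ×ˢ thickening δ' (tc 𝓕 ht₀ G a b ∩ tc 𝓕 ht₀ G a e)) :=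
    (convex_ball _ _).prod
      (((convex_tc 𝓕 ht₀ G a b).inter (convex_tc 𝓕 ht₀ G a e)).thickening δ')
  have hDd : ∀ q ∈ ball t₀ ε ×ˢ thickening δ' (tc 𝓕 ht₀ G a b ∩ tc 𝓕 ht₀ G a e),
      HasFDerivAt D (0 : (Cm p × Cm d) →L[ℝ] ℂ) q := by
    rintro ⟨t, y⟩ ⟨ht, hy⟩
    have ht' : t ∈ ball t₀ ε := ht
    have hyb : y ∈ thickening δ (tc 𝓕 ht₀ G a b) :=
      thickening_mono hδδ _ (thickening_subset_of_subset δ' inter_subset_left hy)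
    have hye : y ∈ thickening δ (tc 𝓕 ht₀ G a e) :=
      thickening_mono hδδ _ (thickening_subset_of_subset δ' inter_subset_right hy)
    have hwe : tr 𝓕 (s a) (s b) (t, y) ∈ thickening δ (tc 𝓕 ht₀ G b e) := tube2 a b e t ht y hy
    obtain ⟨m1, m2, m3⟩ := hEv a b t ht y hyb
    obtain ⟨n1, n2, n3⟩ := hEv a e t ht y hye
    have e1 := ((hat_smooth 𝓕 (hεT ht) m1 m2 m3).differentiableAt (by simp)).hasFDerivAt
    have e2 : HasFDerivAt (Gf b e) (γ b e (hat 𝓕 (s a) (s b) (t, y))) (hat 𝓕 (s a) (s b) (t, y)) :=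
      hGd b e _ ⟨ht', hwe⟩
    have e3 := e2.comp (t, y) e1
    have e4 := hGd a e (t, y) ⟨ht', hye⟩
    have e5 := hGd a b (t, y) ⟨ht', hyb⟩
    refine ((e3.sub e4).add e5).congr_fderiv ?_
    obtain ⟨f1, f2⟩ := hat_comp 𝓕 (hεT ht) m1 m2 m3 n2 n3
    have f3 : hat 𝓕 (s b) (s e) (hat 𝓕 (s a) (s b) (t, y)) = hat 𝓕 (s a) (s e) (t, y) :=
      f1.self_of_nhds.symm
    refine ContinuousLinearMap.ext fun v => ?_
    show (B (s b) (hat 𝓕 (s a) (s b) (t, y)) (fderiv ℝ (hat 𝓕 (s a) (s b)) (t, y) v) -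
      B (s e) (hat 𝓕 (s b) (s e) (hat 𝓕 (s a) (s b) (t, y)))
        (fderiv ℝ (hat 𝓕 (s b) (s e)) (hat 𝓕 (s a) (s b) (t, y))
          (fderiv ℝ (hat 𝓕 (s a) (s b)) (t, y) v))) -
      (B (s a) (t, y) v - B (s e) (hat 𝓕 (s a) (s e) (t, y))
        (fderiv ℝ (hat 𝓕 (s a) (s e)) (t, y) v)) +
      (B (s a) (t, y) v - B (s b) (hat 𝓕 (s a) (s b) (t, y))
        (fderiv ℝ (hat 𝓕 (s a) (s b)) (t, y) v)) = 0
    have f4 : fderiv ℝ (hat 𝓕 (s a) (s e)) (t, y) v =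
        fderiv ℝ (hat 𝓕 (s b) (s e)) (hat 𝓕 (s a) (s b) (t, y))
          (fderiv ℝ (hat 𝓕 (s a) (s b)) (t, y) v) :=
      congrArg (fun L : (Cm p × Cm d) →L[ℝ] (Cm p × Cm d) => L v) f2
    rw [f3, f4]
    ring
  have hDc : ∀ q ∈ ball t₀ ε ×ˢ thickening δ' (tc 𝓕 ht₀ G a b ∩ tc 𝓕 ht₀ G a e),
      ∀ q' ∈ ball t₀ ε ×ˢ thickening δ' (tc 𝓕 ht₀ G a b ∩ tc 𝓕 ht₀ G a e), D q = D q' :=
    fun q hq q' hq' => hQo.is_const_of_fderiv_eq_zero hQc.isPreconnected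
      (fun u hu => (hDd u hu).differentiableAt.differentiableWithinAt)
      (fun u hu => (hDd u hu).fderiv) hq hq'
  have hval : ∀ t ∈ ball t₀ ε, (t, iv 𝓕 (s a) t x) ∈
      ball t₀ ε ×ˢ thickening δ' (tc 𝓕 ht₀ G a b ∩ tc 𝓕 ht₀ G a e) ∧
      g' b e t x - g' a e t x + g' a b t x = D (t, iv 𝓕 (s a) t x) := by
    intro t ht
    obtain ⟨k1, k2, k3⟩ := tube3 a t ht z hz
    have k1' : iv 𝓕 (s a) t (𝓕.σ (s a) t₀ z) ∈ ball z δ' := k1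
    have k3' : 𝓕.σ (s a) t (iv 𝓕 (s a) t (𝓕.σ (s a) t₀ z)) = 𝓕.σ (s a) t₀ z := k3
    rw [hzx'] at k1' k3'
    refine ⟨⟨ht, mem_thickening_iff.2 ⟨z, hztc, k1'⟩⟩, ?_⟩
    simp only [hg', hD, hat, tr]
    rw [k3']
  show ∀ᶠ t in 𝓝 t₀, g' b e t x - g' a e t x + g' a b t x =
    g' b e t₀ x - g' a e t₀ x + g' a b t₀ x
  filter_upwards [hTn] with t ht
  obtain ⟨v1, v2⟩ := hval t ht
  obtain ⟨w1, w2⟩ := hval t₀ ht₀ε
  rw [v2, w2]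
  exact hDc _ v1 _ w1

end

end Vale.Agent.P281.H751.TS
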